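import Vale.Agent.P216S.Cap
import Vale.Agent.P216R.Nat

/-! The surgery metric: definition, comparison with the neck and with the cap, convergence. -/

open scoped ContDiff Topology RealInnerProductSpace Manifold
open Set Filter Real Metric

set_option maxSynthPendingDepth 3

noncomputable section

namespace Vale.Agent.P216S

open Vale.Agent.P219.RG Vale.Agent.P216R Vale.Agent.P216U
open Vale.Agent.P216SG (euc cyl dev Sm anl ann Neck)

/-- the surgery metric of scale `h` -/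
def srg (h : ℝ) (G : E3 → Bil E3) (x : E3) : Bil E3 :=
  (h ^ 2 * exp (-2 * ww (‖x‖ ^ 2))) • ((2 : ℝ) • euc + al (‖x‖ ^ 2) • dev h G x)

/-- a neck in the chart -/
structure NK (G : E3 → Bil E3) (h δ : ℝ) : Prop where
  hpos : 0 < h
  dpos : 0 < δ
  met : IsMetricOn G (anl δ⁻¹)
  sm : Sm (dev h G) (anl δ⁻¹) ⌊δ⁻¹⌋₊ δ

variable {G : E3 → Bil E3} {h δ : ℝ} {x : E3}

theorem nk_of_neck {M : Type} [TopologicalSpace M] [ChartedSpace E3 M] [IsManifold 𝓘(ℝ, E3) ∞ M]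
    {g : Ten E3 M} {U : Set M} {φ : E3 → M} (hg : Met g U) (H : Neck g U φ h δ) :
    NK (comap φ g) h δ :=
  ⟨H.hpos, H.dpos, hg.isMetricOn_comap H.emb.ld H.emb.mem, H.sm⟩

theorem anl_open (L : ℝ) : IsOpen (anl L) :=
  (isOpen_lt continuous_const continuous_norm).inter (isOpen_lt continuous_norm continuous_const)

theorem anl_ne {L : ℝ} (hx : x ∈ anl L) : x ≠ 0 := norm_pos_iff.1 ((exp_pos _).trans hx.1)

theorem dev_apply (h : ℝ) (G : E3 → Bil E3) (x v w : E3) :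
    dev h G x v w = ‖x‖ ^ 2 / h ^ 2 * G x v w - 2 * ⟪v, w⟫ := rfl

theorem srg_apply (h : ℝ) (G : E3 → Bil E3) (x v w : E3) : srg h G x v w =
    h ^ 2 * exp (-2 * ww (‖x‖ ^ 2)) * (2 * ⟪v, w⟫ + al (‖x‖ ^ 2) * dev h G x v w) := rfl

theorem srg_cap (hx : ‖x‖ ^ 2 ≤ 1 / 2) : srg h G x = h ^ 2 • cap x := by
  ext v w
  rw [srg_apply, al_zero hx, smul_apply, smul_apply, cap_apply, smul_eq_mul]; ring

theorem srg_ph (hh : h ≠ 0) (hx : 3 / 4 ≤ ‖x‖ ^ 2) :
    srg h G x = exp (-2 * ph (‖x‖ ^ 2)) • G x := by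
  ext v w
  rw [srg_apply, al_one hx, dev_apply, smul_apply, smul_apply, ← exp_ww (by linarith), smul_eq_mul]
  field_simp; ring

/-- the surgery metric is the old metric outside the unit ball -/
theorem srg_out (hh : h ≠ 0) (hx : 1 ≤ ‖x‖) : srg h G x = G x := by
  have := one_le_pow₀ (n := 2) hx
  rw [srg_ph hh (by linarith), ph_zero this]; simp

theorem dev_scale (h : ℝ) (G : E3 → Bil E3) : dev 1 ((h ^ 2)⁻¹ • G) = dev h G := by
  ext x v w
  simp only [dev_apply, Pi.smul_apply, smul_apply, smul_eq_mul]; ring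

theorem srg_scale (hh : h ≠ 0) (G : E3 → Bil E3) :
    (h ^ 2)⁻¹ • srg h G = srg 1 ((h ^ 2)⁻¹ • G) := by
  ext x v w
  simp only [Pi.smul_apply, smul_apply, smul_eq_mul, srg_apply, dev_scale]; field_simp

theorem srg_eq (hh : h ≠ 0) (G : E3 → Bil E3) :
    srg h G = h ^ 2 • srg 1 ((h ^ 2)⁻¹ • G) := by
  rw [← srg_scale hh, smul_inv_smul₀ (pow_ne_zero 2 hh)]

theorem cap_nonneg (x v : E3) : 0 ≤ cap x v v := by
  rw [cap_apply]; exact mul_nonneg (exp_pos _).le (mul_nonneg two_pos.le real_inner_self_nonneg)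

theorem mem_anl_of (hδ : 0 < δ) (h1 : δ ≤ 1) (hx : x ∈ ball (0 : E3) (exp δ⁻¹))
    (h2 : 1 / 2 ≤ ‖x‖ ^ 2) : x ∈ anl δ⁻¹ := by
  refine ⟨lt_of_pow_lt_pow_left₀ 2 (norm_nonneg x) (lt_of_lt_of_le ?_ h2), mem_ball_zero_iff.1 hx⟩
  have h3 := add_one_le_exp (2 * δ⁻¹)
  have h4 := one_le_inv₀ hδ |>.2 h1
  rw [← exp_nat_mul, Nat.cast_ofNat, mul_neg, exp_neg, one_div]
  exact inv_strictAnti₀ two_pos (by linarith)

namespace NK

theorem scale (H : NK G h δ) : NK ((h ^ 2)⁻¹ • G) 1 δ :=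
  ⟨one_pos, H.dpos, met_model.1 ((met_model.2 H.met).smul (inv_pos.2 (pow_pos H.hpos 2))),
    dev_scale h G ▸ H.sm⟩

theorem norm_dev (H : NK G h δ) (hx : x ∈ anl δ⁻¹) : ‖dev h G x‖ ≤ δ := by
  simpa using H.sm 0 (Nat.zero_le _) x hx

theorem abs_dev (H : NK G h δ) (hx : x ∈ anl δ⁻¹) (v : E3) : |dev h G x v v| ≤ δ * ⟪v, v⟫ := by
  rw [real_inner_self_eq_norm_sq, sq, ← mul_assoc]
  exact ((dev h G x).le_opNorm₂ v v).trans (by gcongr; exact H.norm_dev hx)

theorem dev_cd (H : NK G h δ) : ContDiffOn ℝ ∞ (dev h G) (anl δ⁻¹) :=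
  ((nq_cd.div_const _).contDiffOn.smul H.met.smooth).sub contDiffOn_const

/-- comparison of the neck with the cylinder -/
theorem cmp_cyl (H : NK G h δ) (hx : x ∈ anl δ⁻¹) (v : E3) :
    |G x v v - h ^ 2 * cyl x v v| ≤ δ / 2 * (h ^ 2 * cyl x v v) := by
  have h1 := pow_pos (norm_pos_iff.2 (anl_ne hx)) 2
  have h2 := pow_pos H.hpos 2
  have e : G x v v - h ^ 2 * cyl x v v = h ^ 2 / ‖x‖ ^ 2 * dev h G x v v := by
    have := H.hpos.ne'
    have := norm_ne_zero_iff.2 (anl_ne hx)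
    rw [dev_apply, cyl_apply]; field_simp
  rw [e, abs_mul, abs_of_pos (div_pos h2 h1)]
  exact (mul_le_mul_of_nonneg_left (H.abs_dev hx v) (div_pos h2 h1).le).trans_eq
    (by rw [cyl_apply]; ring)

/-- comparison of the surgery metric with the cap -/
theorem cmp_cap (H : NK G h δ) (h1 : δ ≤ 1) (hx : x ∈ ball (0 : E3) (exp δ⁻¹)) (v : E3) :
    |srg h G x v v - h ^ 2 * cap x v v| ≤ δ / 2 * (h ^ 2 * cap x v v) := by
  have h2 := H.dpos
  rcases le_total (‖x‖ ^ 2) (1 / 2) with h3 | h3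
  · rw [srg_cap h3, smul_apply, smul_apply, smul_eq_mul, sub_self, abs_zero]
    exact mul_nonneg (by positivity) (mul_nonneg (sq_nonneg h) (cap_nonneg x v))
  have e : srg h G x v v - h ^ 2 * cap x v v =
      h ^ 2 * exp (-2 * ww (‖x‖ ^ 2)) * (al (‖x‖ ^ 2) * dev h G x v v) := by
    rw [srg_apply, cap_apply]; ring
  rw [e, abs_mul, abs_of_nonneg (by positivity), abs_mul, abs_of_nonneg (al_nonneg _)]
  refine (mul_le_mul_of_nonneg_left ((mul_le_of_le_one_left (abs_nonneg _) (al_le _)).trans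
    (H.abs_dev (mem_anl_of h2 h1 hx h3) v)) (by positivity)).trans_eq ?_
  rw [cap_apply]; ring

theorem cap_le (H : NK G h δ) (h1 : δ ≤ 1) (hx : x ∈ ball (0 : E3) (exp δ⁻¹)) (v : E3) :
    h ^ 2 / 2 * cap x v v ≤ srg h G x v v := by
  have := mul_nonneg (sq_nonneg h) (cap_nonneg x v)
  nlinarith [(abs_le.1 (H.cmp_cap h1 hx v)).1]

theorem le_cap (H : NK G h δ) (h1 : δ ≤ 1) (hx : x ∈ ball (0 : E3) (exp δ⁻¹)) (v : E3) :
    srg h G x v v ≤ 2 * h ^ 2 * cap x v v := by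
  have := mul_nonneg (sq_nonneg h) (cap_nonneg x v)
  nlinarith [(abs_le.1 (H.cmp_cap h1 hx v)).2]

/-- the surgery metric is a metric on the ball -/
theorem srg_metric (H : NK G h δ) (h1 : δ ≤ 1) : IsMetricOn (srg h G) (ball 0 (exp δ⁻¹)) := by
  refine ⟨isOpen_ball, fun x hx => ContDiffAt.contDiffWithinAt ?_, fun x hx v w => ?_,
    fun x hx v hv => lt_of_lt_of_le (mul_pos (half_pos (pow_pos H.hpos 2))
      ((cap_metric isOpen_univ).pos x (mem_univ x) v hv)) (H.cap_le h1 hx v)⟩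
  · rcases lt_or_ge (‖x‖ ^ 2) (1 / 2) with h3 | h3
    · exact (cap_cd.contDiffAt.const_smul (h ^ 2)).congr_of_eventuallyEq
        (((nq_t x).eventually (eventually_lt_nhds h3)).mono fun y hy => srg_cap hy.le)
    · exact (contDiff_const.mul (contDiff_const.mul ww_nq).exp).contDiffAt.smul
        (contDiffAt_const.add ((al_cd.comp nq_cd).contDiffAt.smul (H.dev_cd.contDiffAt
          ((anl_open _).mem_nhds (mem_anl_of H.dpos h1 hx h3)))))
  · rcases le_total (‖x‖ ^ 2) (1 / 2) with h3 | h3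
    · simp only [srg_cap h3, smul_apply, cap_apply, real_inner_comm v]
    · simp only [srg_apply, dev_apply, real_inner_comm v,
        H.met.symm x (mem_anl_of H.dpos h1 hx h3) v]

end NK

theorem ph_anti {a b : ℝ} (ha : 0 < a) (hab : a ≤ b) : ph b ≤ ph a := by
  rcases hab.eq_or_lt with rfl | hab
  · rfl
  obtain ⟨c, hc, e⟩ := ph_mv ha hab
  have h0 := ha.trans hc.1
  have := mul_nonneg (div_nonneg (th_nonneg h0.le) (by linarith : 0 ≤ 2 * c)) (sub_pos.2 hab).le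
  linarith

theorem ph_pos : 0 < ph (3 / 4) := by
  obtain ⟨c, hc, e⟩ := ph_mv (a := 3 / 4) (b := 1) (by norm_num) (by norm_num)
  have h1 : 0 < th c := mul_pos (mu_pos hc.2) (div_pos (by linarith [hc.2]) (by linarith [hc.1]))
  have := mul_pos (div_pos h1 (by linarith [hc.1] : 0 < 2 * c)) (by norm_num : (0 : ℝ) < 1 - 3 / 4)
  linarith [ph_one]

/-- the surgery metric is at most the old metric -/
theorem exists_srg_le : ∃ δ₀ > 0, ∀ (G : E3 → Bil E3) (h δ : ℝ), NK G h δ → δ ≤ δ₀ →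
    ∀ x ∈ anl δ⁻¹, ∀ v, srg h G x v v ≤ G x v v := by
  have c1 : exp (-2 * ph (3 / 4)) < 1 := exp_lt_one_iff.2 (by linarith [ph_pos])
  refine ⟨1 - exp (-2 * ph (3 / 4)), sub_pos.2 c1, fun G h δ H hδ x hx v => ?_⟩
  have h0 := pow_pos (norm_pos_iff.2 (anl_ne hx)) 2
  have g0 := (met_model.2 H.met).nonneg hx v
  rcases le_total (3 / 4) (‖x‖ ^ 2) with h3 | h3
  · rw [srg_ph H.hpos.ne' h3]
    exact mul_le_of_le_one_left g0 (exp_ph_le h0)
  have e : srg h G x v v = exp (-2 * ph (‖x‖ ^ 2)) *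
      (al (‖x‖ ^ 2) * G x v v + (1 - al (‖x‖ ^ 2)) * (h ^ 2 * cyl x v v)) := by
    have := H.hpos.ne'
    have := norm_ne_zero_iff.2 (anl_ne hx)
    rw [srg_apply, dev_apply, cyl_apply, ← exp_ww h0]; field_simp; ring
  have h4 : exp (-2 * ph (‖x‖ ^ 2)) ≤ 1 - δ :=
    le_trans (exp_le_exp.2 (by linarith [ph_anti h0 h3])) (le_sub_comm.1 hδ)
  have h5 := (abs_le.1 (H.cmp_cyl hx v)).1
  have h6 := mul_nonneg (sq_nonneg h) (cyl_nonneg x v)
  have h7 := al_nonneg (‖x‖ ^ 2)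
  have h8 := sub_nonneg.2 (al_le (‖x‖ ^ 2))
  have h9 := H.dpos
  rw [e]
  refine (mul_le_mul_of_nonneg_right h4 (by positivity)).trans ?_
  have k1 : (1 - δ) * (h ^ 2 * cyl x v v) ≤ G x v v := by nlinarith
  nlinarith [mul_le_mul_of_nonneg_left k1 h8, mul_nonneg h7 (mul_nonneg h9.le g0)]

/-! ### convergence -/

section cv

variable {ι : Type} {l : Filter ι} {G : ι → E3 → Bil E3} {h δ : ι → ℝ}

theorem tendsto_inv (H : ∀ᶠ n in l, NK (G n) (h n) (δ n)) (hδ : Tendsto δ l (𝓝 0)) :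
    Tendsto (fun n => (δ n)⁻¹) l atTop :=
  tendsto_inv_nhdsGT_zero.comp (tendsto_nhdsWithin_iff.2 ⟨hδ, H.mono fun _ k => k.dpos⟩)

theorem ev_ball (H : ∀ᶠ n in l, NK (G n) (h n) (δ n)) (hδ : Tendsto δ l (𝓝 0)) (r : ℝ) :
    ∀ᶠ n in l, r < exp (δ n)⁻¹ :=
  (tendsto_exp_atTop.comp (tendsto_inv H hδ)).eventually_gt_atTop r

theorem ev_anl (H : ∀ᶠ n in l, NK (G n) (h n) (δ n)) (hδ : Tendsto δ l (𝓝 0)) (hx : x ≠ 0) :
    ∀ᶠ q in l ×ˢ 𝓝 x, q.2 ∈ anl (δ q.1)⁻¹ := by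
  have h1 := continuous_norm.continuousAt.tendsto.comp (tendsto_snd (f := l) (g := 𝓝 x))
  filter_upwards [((tendsto_exp_neg_atTop_nhds_zero.comp (tendsto_inv H hδ)).comp
    tendsto_fst).eventually_lt h1 (norm_pos_iff.2 hx), h1.eventually (eventually_lt_nhds
    (lt_add_one _)), tendsto_fst.eventually (ev_ball H hδ (‖x‖ + 1))] with q h2 h3 h4
  exact ⟨h2, h3.trans h4⟩

theorem cv_dev (H : ∀ᶠ n in l, NK (G n) (h n) (δ n)) (hδ : Tendsto δ l (𝓝 0)) :
    Cv l {0}ᶜ (fun n => dev (h n) (G n)) 0 := by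
  refine ⟨fun x hx k => ⟨max 1 (2 / ‖x‖) ^ k, ?_⟩, fun x hx => squeeze_zero_norm' ?_ hδ⟩
  · have h0 := norm_pos_iff.2 hx
    rw [isOpen_compl_singleton.nhdsWithin_eq hx]
    filter_upwards [ev_anl H hδ hx, tendsto_fst.eventually H,
      tendsto_fst.eventually ((tendsto_inv H hδ).eventually_ge_atTop k),
      tendsto_fst.eventually (hδ.eventually (eventually_le_nhds one_pos)),
      (continuous_norm.continuousAt.tendsto.comp tendsto_snd).eventually
        (eventually_gt_nhds (half_lt_self h0))] with q h1 h2 h3 h4 h5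
    refine ⟨((h2.dev_cd.contDiffAt ((anl_open _).mem_nhds h1)).of_le
      (by exact_mod_cast le_top)).contDiffWithinAt, fun j hj => ?_⟩
    rw [iteratedFDerivWithin_of_isOpen j isOpen_compl_singleton (anl_ne h1)]
    have h6 := (h2.sm j (hj.trans (Nat.le_floor h3)) _ h1).trans h4
    have h7 : 0 < ‖q.2‖ := (half_pos h0).trans h5
    rw [← le_div_iff₀' (pow_pos h7 j), one_div, ← inv_pow] at h6
    refine h6.trans ((pow_le_pow_left₀ (by positivity) (le_max_of_le_right ?_) j).trans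
      (pow_le_pow_right₀ (le_max_left _ _) hj))
    rw [← inv_div]
    exact inv_anti₀ (half_pos h0) h5.le
  · filter_upwards [H, (tendsto_id.prodMk tendsto_const_nhds).eventually (ev_anl H hδ hx)]
      with n h1 h2 using h1.norm_dev h2

/-- necks converge to the cylinder -/
theorem cv_neck (H : ∀ᶠ n in l, NK (G n) (h n) (δ n)) (hδ : Tendsto δ l (𝓝 0)) :
    Cv l {0}ᶜ (fun n => (h n ^ 2)⁻¹ • G n) cyl := by
  have hS := Nice.of_isOpen (isOpen_compl_singleton (x := (0 : E3)))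
  refine (cv_smul hS (.const hS.ud (nq_cd.contDiffOn.fun_inv fun y hy =>
    pow_ne_zero 2 (norm_ne_zero_iff.2 hy))) (cv_add hS (cv_dev H hδ)
      (cv_c hS ((2 : ℝ) • euc)))).congr (fun x _ => (ev_mem l _ x).mono fun q hq => ?_)
      fun x hx => ?_
  · have := norm_ne_zero_iff.2 hq
    ext v w
    simp only [Pi.smul_apply, smul_apply, add_apply, dev_apply, euc_apply, smul_eq_mul]
    field_simp; ring
  · ext v w
    simp only [smul_apply, add_apply, cyl_apply, euc_apply, smul_eq_mul, Pi.zero_apply, zero_apply]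
    ring

/-- the surgery metrics converge to the cap -/
theorem cv_srg (H : ∀ᶠ n in l, NK (G n) (h n) (δ n)) (hδ : Tendsto δ l (𝓝 0)) :
    Cv l univ (fun n => (h n ^ 2)⁻¹ • srg (h n) (G n)) cap := by
  have hp : ∀ S x, ∀ᶠ q in l ×ˢ 𝓝[S] (x : E3), h q.1 ≠ 0 := fun S x =>
    tendsto_fst.eventually (H.mono fun _ k => k.hpos.ne')
  refine .of_local fun x _ => ?_
  rcases eq_or_ne x 0 with rfl | hx
  · have hV : IsOpen {y : E3 | ‖y‖ ^ 2 < 1 / 2} := isOpen_lt nq_cd.continuous continuous_const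
    refine ⟨_, hV.mem_nhds (by simp), ?_⟩
    rw [univ_inter]
    refine (Cv.const hV.uniqueDiffOn cap_cd.contDiffOn).congr (fun x _ => ?_) fun _ _ => rfl
    filter_upwards [hp _ x, ev_mem l _ x] with q h1 h2
    rw [Pi.smul_apply, srg_cap (le_of_lt h2), inv_smul_smul₀ (pow_ne_zero 2 h1)]
  · have hS := Nice.of_isOpen (isOpen_compl_singleton (x := (0 : E3)))
    refine ⟨_, isOpen_compl_singleton.mem_nhds hx, ?_⟩
    rw [univ_inter]
    refine (cv_smul hS (.const hS.ud (contDiff_const.mul ww_nq).exp.contDiffOn (g := fun y =>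
      exp (-2 * ww (‖y‖ ^ 2)))) (cv_add hS (cv_c hS ((2 : ℝ) • euc)) (cv_smul hS (.const hS.ud
        (al_cd.comp nq_cd).contDiffOn) (cv_dev H hδ)))).congr
      (fun x _ => (hp _ x).mono fun q hq => ?_) fun x _ => by simp [cap, cnf, e2]
    rw [Pi.smul_apply, srg, mul_smul, inv_smul_smul₀ (pow_ne_zero 2 hq)]; rfl

end cv

/-- from sequences of necks to a uniform smallness constant -/
theorem exists_delta {P : (E3 → Bil E3) → ℝ → Prop}
    (H : ∀ (G : ℕ → E3 → Bil E3) (δ : ℕ → ℝ), (∀ n, NK (G n) 1 (δ n)) →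
      Tendsto δ (hyperfilter ℕ) (𝓝 0) → ∀ᶠ n in hyperfilter ℕ, P (G n) (δ n)) :
    ∃ δ₀ > 0, ∀ G δ, NK G 1 δ → δ ≤ δ₀ → P G δ := by
  by_contra! hc
  choose G δ h1 h2 h3 using fun n : ℕ => hc (1 / ((n : ℝ) + 1)) (by positivity)
  obtain ⟨n, hn⟩ := (H G δ h1 ((squeeze_zero (fun n => (h1 n).dpos.le) h2
    tendsto_one_div_add_atTop_nhds_zero_nat).mono_left Nat.hyperfilter_le_atTop)).exists
  exact h3 n hn

end Vale.Agent.P216S
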