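import Vale.Agent.P216S.Conf
import Vale.Agent.P216U.Cv

/-! Curvature quantities in a chart: locality, smoothness, smooth convergence. -/

open scoped ContDiff Topology
open Set Filter

set_option maxSynthPendingDepth 3
set_option linter.unusedSectionVars false

noncomputable section

namespace Vale.Agent.P216S

open Vale.Agent.P219.RG Vale.Agent.P216R Vale.Agent.P216U
open Vale.Agent.P210.R2.H53 (gradG gamG hessG lapG)

variable {E : Type} [NormedAddCommGroup E] [NormedSpace ℝ E]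

section loc

variable {G G' : E → Bil E} {u : E}

theorem chrisB_loc (h : G =ᶠ[𝓝 u] G') : chrisB G =ᶠ[𝓝 u] chrisB G' := by
  filter_upwards [h, h.fderiv (𝕜 := ℝ)] with y h1 h2
  rw [chrisB, chrisB, h1, h2]

theorem curvB_loc (h : G =ᶠ[𝓝 u] G') : curvB G =ᶠ[𝓝 u] curvB G' := by
  filter_upwards [chrisB_loc h, (chrisB_loc h).fderiv (𝕜 := ℝ)] with y h1 h2
  rw [curvB, curvB, h1, h2]

theorem curv_loc (h : G =ᶠ[𝓝 u] G') (x y z : E) : curv G u x y z = curv G' u x y z := by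
  have e : ∀ a b, (fun p => chris G p a b) =ᶠ[𝓝 u] fun p => chris G' p a b := fun a b =>
    (chrisB_loc h).mono fun p hp => by simp only [← chrisB_apply, hp]
  rw [curv, curv, (e y z).fderiv_eq, (e x z).fderiv_eq]
  simp only [← chrisB_apply, (chrisB_loc h).self_of_nhds]

theorem hessG_loc (h : G =ᶠ[𝓝 u] G') {f f' : E → ℝ} (hf : f =ᶠ[𝓝 u] f') :
    hessG G f u = hessG G' f' u := by
  ext v w
  rw [hessG_apply, hessG_apply, hf.fderiv_eq, (hf.fderiv (𝕜 := ℝ)).fderiv_eq, ← chrisB_apply,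
    ← chrisB_apply, (chrisB_loc h).self_of_nhds]

variable [FiniteDimensional ℝ E]

theorem ricG_loc (h : G =ᶠ[𝓝 u] G') : ricG G =ᶠ[𝓝 u] ricG G' :=
  (curvB_loc h).mono fun y hy => by rw [ricG, ricG, hy]

theorem scG_loc (h : G =ᶠ[𝓝 u] G') : scG G =ᶠ[𝓝 u] scG G' := by
  filter_upwards [h, ricG_loc h] with y h1 h2
  rw [scG, scG, h1, h2]

theorem pG_loc (h : G =ᶠ[𝓝 u] G') : pG G =ᶠ[𝓝 u] pG G' := by
  filter_upwards [h, ricG_loc h, scG_loc h] with y h1 h2 h3
  rw [pG, pG, h1, h2, h3]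

end loc

section cv

variable {ι F H K : Type} [NormedAddCommGroup F] [NormedSpace ℝ F] [NormedAddCommGroup H]
  [NormedSpace ℝ H] [NormedAddCommGroup K] [NormedSpace ℝ K] {l : Filter ι} {S : Set E}

theorem cv_add (hS : Nice S) {f f' : ι → E → F} {g g' : E → F} (h : Cv l S f g)
    (h' : Cv l S f' g') : Cv l S (fun n y => f n y + f' n y) fun y => g y + g' y :=
  h.map₂ hS (Φ := fun a b => a + b) (by fun_prop) h'

theorem cv_sub (hS : Nice S) {f f' : ι → E → F} {g g' : E → F} (h : Cv l S f g)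
    (h' : Cv l S f' g') : Cv l S (fun n y => f n y - f' n y) fun y => g y - g' y :=
  h.map₂ hS (Φ := fun a b => a - b) (by fun_prop) h'

theorem cv_smul (hS : Nice S) {f : ι → E → ℝ} {g : E → ℝ} {f' : ι → E → F} {g' : E → F}
    (h : Cv l S f g) (h' : Cv l S f' g') : Cv l S (fun n y => f n y • f' n y) fun y => g y • g' y :=
  h.map₂ hS (Φ := fun a b => a • b) (by fun_prop) h'

theorem cv_app (hS : Nice S) {f : ι → E → F →L[ℝ] H} {g : E → F →L[ℝ] H} {f' : ι → E → F}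
    {g' : E → F} (h : Cv l S f g) (h' : Cv l S f' g') :
    Cv l S (fun n y => f n y (f' n y)) fun y => g y (g' y) :=
  h.map₂ hS (Φ := fun a b => a b) (contDiff_fst.clm_apply contDiff_snd) h'

theorem cv_comp (hS : Nice S) {f : ι → E → H →L[ℝ] K} {g : E → H →L[ℝ] K}
    {f' : ι → E → F →L[ℝ] H} {g' : E → F →L[ℝ] H} (h : Cv l S f g) (h' : Cv l S f' g') :
    Cv l S (fun n y => f n y ∘L f' n y) fun y => g y ∘L g' y :=
  h.map₂ hS (Φ := fun a b => a ∘L b) (contDiff_fst.clm_comp contDiff_snd) h'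

theorem cv_c (hS : Nice S) (c : F) : Cv l S (fun _ _ => c) fun _ => c :=
  .const hS.ud contDiffOn_const

theorem cv_clm (hS : Nice S) (A : F →L[ℝ] H) {f : ι → E → F} {g : E → F} (h : Cv l S f g) :
    Cv l S (fun n y => A (f n y)) fun y => A (g y) := h.map' hS A.contDiff

theorem cv_flip (hS : Nice S) {f : ι → E → F →L[ℝ] H →L[ℝ] K} {g : E → F →L[ℝ] H →L[ℝ] K}
    (h : Cv l S f g) : Cv l S (fun n y => (f n y).flip) fun y => (g y).flip :=
  h.map' hS (ContinuousLinearMap.flipₗᵢ ℝ F H K).toContinuousLinearEquiv.contDiff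

theorem cv_inv [CompleteSpace F] (hS : Nice S) {f : ι → E → F →L[ℝ] H} {g : E → F →L[ℝ] H}
    (h : Cv l S f g) (hg : ∀ y ∈ S, (g y).IsInvertible) :
    Cv l S (fun n y => (f n y).inverse) fun y => (g y).inverse :=
  h.map hS (T := range ((↑) : (F ≃L[ℝ] H) → F →L[ℝ] H)) ContinuousLinearEquiv.isOpen
    (fun _ hA => (ContinuousLinearMap.IsInvertible.contDiffAt_map_inverse hA).contDiffWithinAt) hg

variable [FiniteDimensional ℝ E] {U : Ultrafilter ι} {G : ι → E → Bil E} {g : E → Bil E}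

theorem cv_ginv (h : Cv l S G g) (hg : IsMetricOn g S) :
    Cv l S (fun n y => (G n y).inverse) fun y => (g y).inverse :=
  have := FiniteDimensional.complete ℝ E
  cv_inv (.of_isOpen hg.isOpen) h fun _ hy => hg.isInvertible hy

theorem cv_chrisB (h : Cv U S G g) (hg : IsMetricOn g S) :
    Cv U S (fun n => chrisB (G n)) (chrisB g) :=
  have hS := Nice.of_isOpen hg.isOpen
  have d := h.fderiv hg.isOpen
  cv_comp hS (cv_clm hS (ContinuousLinearMap.compL ℝ E (E →L[ℝ] ℝ) E) (cv_ginv h hg))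
    (cv_smul hS (cv_c hS (1 / 2 : ℝ)) (cv_sub hS (cv_add hS d (cv_flip hS d))
      (cv_comp hS (cv_c hS _) (cv_flip hS d))))

theorem cv_curvB (h : Cv U S G g) (hg : IsMetricOn g S) :
    Cv U S (fun n => curvB (G n)) (curvB g) :=
  have hS := Nice.of_isOpen hg.isOpen
  have c := cv_chrisB h hg
  have d := cv_add hS (c.fderiv hg.isOpen) (cv_flip hS (cv_comp hS (cv_flip hS
    (cv_comp hS (cv_c hS (ContinuousLinearMap.compL ℝ E E E)) c)) c))
  cv_sub hS d (cv_flip hS d)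

theorem cv_ricG (h : Cv U S G g) (hg : IsMetricOn g S) : Cv U S (fun n => ricG (G n)) (ricG g) :=
  have hS := Nice.of_isOpen hg.isOpen
  cv_comp hS (cv_c hS _) (cv_comp hS (cv_c hS _) (cv_flip hS (cv_curvB h hg)))

theorem cv_trB (h : Cv l S G g) (hg : IsMetricOn g S) {B : ι → E → Bil E} {b : E → Bil E}
    (hB : Cv l S B b) : Cv l S (fun n y => trB (G n y) (B n y)) fun y => trB (g y) (b y) :=
  have hS := Nice.of_isOpen hg.isOpen
  cv_clm hS (trL E) (cv_comp hS (cv_ginv h hg) hB)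

theorem cv_scG (h : Cv U S G g) (hg : IsMetricOn g S) : Cv U S (fun n => scG (G n)) (scG g) :=
  cv_trB h hg (cv_ricG h hg)

theorem cv_pG (h : Cv U S G g) (hg : IsMetricOn g S) : Cv U S (fun n => pG (G n)) (pG g) :=
  have hS := Nice.of_isOpen hg.isOpen
  cv_sub hS (cv_smul hS ((cv_scG h hg).map' hS (Φ := fun a => a / 2) (by fun_prop)) h)
    (cv_ricG h hg)

variable {f f' : ι → E → ℝ} {φ φ' : E → ℝ}

theorem cv_gradG (h : Cv U S G g) (hg : IsMetricOn g S) (hf : Cv U S f φ) :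
    Cv U S (fun n => gradG (G n) (f n)) (gradG g φ) :=
  cv_app (.of_isOpen hg.isOpen) (cv_ginv h hg) (hf.fderiv hg.isOpen)

theorem cv_gamG (h : Cv U S G g) (hg : IsMetricOn g S) (hf : Cv U S f φ) (hf' : Cv U S f' φ') :
    Cv U S (fun n => gamG (G n) (f n) (f' n)) (gamG g φ φ') :=
  cv_app (.of_isOpen hg.isOpen) (hf.fderiv hg.isOpen) (cv_gradG h hg hf')

omit [FiniteDimensional ℝ E] in
theorem hessG_eq (G : E → Bil E) (φ : E → ℝ) : hessG G φ = fun z => fderiv ℝ (fderiv ℝ φ) z -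
    ContinuousLinearMap.compL ℝ E E ℝ (fderiv ℝ φ z) ∘L chrisB G z := by
  ext z v w; simp [hessG_apply, chrisB_apply]

theorem cv_hessG (h : Cv U S G g) (hg : IsMetricOn g S) (hf : Cv U S f φ) :
    Cv U S (fun n => hessG (G n) (f n)) (hessG g φ) := by
  have hS := Nice.of_isOpen hg.isOpen
  have d := hf.fderiv hg.isOpen
  simp only [hessG_eq]
  exact cv_sub hS (d.fderiv hg.isOpen) (cv_comp hS (cv_clm hS _ d) (cv_chrisB h hg))

theorem cv_lapG (h : Cv U S G g) (hg : IsMetricOn g S) (hf : Cv U S f φ) :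
    Cv U S (fun n => lapG (G n) (f n)) (lapG g φ) := cv_trB h hg (cv_hessG h hg hf)

/-- smoothness of the curvature quantities of one metric -/
theorem cv_self {g : E → F} (hS : IsOpen S) (hg : ContDiffOn ℝ ∞ g S) :
    Cv (↑(pure () : Ultrafilter Unit) : Filter Unit) S (fun _ => g) g := .const hS.uniqueDiffOn hg

theorem scG_cd (hg : IsMetricOn g S) : ContDiffOn ℝ ∞ (scG g) S :=
  (cv_scG (cv_self hg.isOpen hg.smooth) hg).contDiffOn (.of_isOpen hg.isOpen)

theorem pG_cd (hg : IsMetricOn g S) : ContDiffOn ℝ ∞ (pG g) S :=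
  (cv_pG (cv_self hg.isOpen hg.smooth) hg).contDiffOn (.of_isOpen hg.isOpen)

/-- uniform closeness on compact sets -/
theorem cv_near (hS : IsOpen S) {f : ι → E → F} {g : E → F} (h : Cv l S f g)
    (hg : ContinuousOn g S) {A : Set E} (hA : IsCompact A) (hs : A ⊆ S) {ε : ℝ} (hε : 0 < ε) :
    ∀ᶠ n in l, ∀ y ∈ A, ‖f n y - g y‖ < ε :=
  ev_compact (P := fun q => ‖f q.1 q.2 - g q.2‖ < ε) hA hs fun x hx => by
    have h1 := (h.tendsto (.of_isOpen hS) (hs hx)).sub ((hg x (hs hx)).tendsto.comp tendsto_snd)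
    rw [sub_self] at h1
    exact h1.norm.eventually (gt_mem_nhds (by simpa using hε))

theorem cv_near' [FiniteDimensional ℝ F] (hS : IsOpen S) {f : ι → E → F} {g : E → F}
    (h : Cv U S f g) {A : Set E} (hA : IsCompact A) (hs : A ⊆ S) {ε : ℝ} (hε : 0 < ε) :
    ∀ᶠ n in U, ∀ y ∈ A, ‖f n y - g y‖ < ε :=
  cv_near hS h (h.contDiffOn (.of_isOpen hS)).continuousOn hA hs hε

end cv

end Vale.Agent.P216S
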