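import Vale.Agent.P216S.Srg
import Vale.Agent.P216BF.Curv
import Vale.Agent.P216B.Top

/-! The curvature of the surgery metric: pinching is preserved. -/

open scoped ContDiff Topology RealInnerProductSpace Manifold
open Set Filter Real Metric

set_option maxSynthPendingDepth 3
set_option linter.unusedSectionVars false

noncomputable section

namespace Vale.Agent.P216S

open Vale.Agent.P219.RG Vale.Agent.P216R Vale.Agent.P216U Vale.Agent.P216BF
open Vale.Agent.P216SG (euc cyl dev Sm anl ann Neck)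
open Vale.Agent.P210.R2.H53 (gradG gamG hessG lapG)

section gen

variable {E : Type} [NormedAddCommGroup E] [NormedSpace ℝ E] [FiniteDimensional ℝ E]

/-- in dimension three the sectional curvatures are the eigenvalues of `R/2 g - Ric` -/
theorem secGe_iff {M : Type} [TopologicalSpace M] [ChartedSpace E M] [IsManifold 𝓘(ℝ, E) ∞ M]
    {g : Ten E M} {U : Set M} {x : M} {κ : ℝ} (h3 : Module.finrank ℝ E = 3) (hg : Met g U)
    (hx : x ∈ U) : SecGe g x κ ↔ RicLe g x (Sc g x / 2 - κ) := by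
  refine ⟨fun h => ricLe_sc3 h3 hg hx (κ := -κ) (by simpa using h), fun h =>
    secGe_of_pair hg hx fun v w hv hw hvw => ?_⟩
  obtain ⟨e, he, rfl, rfl⟩ := (met_pd hg hx).onb_pair (ι := Fin 3) (by simpa using h3) hv hw hvw
    (i := 1) (j := 2) (by decide)
  have := h (e 0)
  rw [he.self] at this
  linarith [(sc_frame3 hg hx he).1, (sc_frame3 hg hx he).2]

variable {G : E → Bil E} {U : Set E} {x : E} {F a θ : E → ℝ} {b κ : ℝ}

theorem secGe_pG (h3 : Module.finrank ℝ E = 3) (hG : IsMetricOn G U) (hx : x ∈ U) :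
    SecGe G x κ ↔ ∀ v, κ * G x v v ≤ pG G x v v := by
  rw [secGe_iff h3 (met_model.2 hG) hx]
  simp only [RicLe, Ric_model, Sc_model, pG, sub_apply, smul_apply, smul_eq_mul]
  exact forall_congr' fun v => ⟨fun h => by linarith, fun h => by linarith⟩

theorem hess_chain (hF : fderiv ℝ F =ᶠ[𝓝 x] fun y => θ y • fderiv ℝ a y)
    (hθ : HasFDerivAt θ (b • fderiv ℝ a x) x) (ha : DifferentiableAt ℝ (fderiv ℝ a) x) :
    hessG G F x = b • (fderiv ℝ a x).smulRight (fderiv ℝ a x) + θ x • hessG G a x := by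
  ext v w
  rw [hessG_apply, hF.fderiv_eq, hF.self_of_nhds, (hθ.fun_smul ha.hasFDerivAt).fderiv]
  simp [hessG_apply]
  ring

theorem lap_chain (hG : IsMetricOn G U) (hx : x ∈ U)
    (hF : fderiv ℝ F =ᶠ[𝓝 x] fun y => θ y • fderiv ℝ a y)
    (hθ : HasFDerivAt θ (b • fderiv ℝ a x) x) (ha : DifferentiableAt ℝ (fderiv ℝ a) x) :
    lapG G F x = b * gamG G a a x + θ x * lapG G a x := by
  rw [lapG_eq, hess_chain hF hθ ha, trB_add, trB_smul, trB_smul, trB_rk (hG.isInvertible hx)]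
  rfl

theorem gam_chain (hF : fderiv ℝ F x = b • fderiv ℝ a x) :
    gamG G F F x = b ^ 2 * gamG G a a x := by
  simp only [gamG, gradG, hF, map_smul, smul_apply, smul_eq_mul]; ring

theorem sq_le_gam (hG : IsMetricOn G U) (hx : x ∈ U) (a : E → ℝ) (v : E) :
    fderiv ℝ a x v ^ 2 ≤ gamG G a a x * G x v v := by
  rw [gamG, ← grad_spec hG hx, ← grad_spec hG hx]
  exact (met_pd (met_model.2 hG) hx).cs _ _

theorem ev_nonneg {α : Type} {l : Filter α} {A : α → Bil E} {B : Bil E} (h : Tendsto A l (𝓝 B))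
    (hB : ∀ v, v ≠ 0 → 0 < B v v) : ∀ᶠ i in l, ∀ v, 0 ≤ A i v v := by
  obtain ⟨c, hc, hB'⟩ := exists_coer hB
  filter_upwards [close_forms h hc hB' one_pos] with i hi v
  linarith [(hi v).2, nonneg_of_pos hB v]

end gen

section alg

variable {g P α γ Λ H t m b F κ R : ℝ}

theorem alg_sec (g0 : 0 ≤ g) (k0 : κ ≤ 0) (hP : κ * g ≤ P) (hP' : α ^ 2 - g / 100 ≤ P)
    (cs : α ^ 2 ≤ γ * g) (hγ : |γ - 1 / 2| ≤ 1 / 100) (hΛ : -(1 / 100) ≤ Λ) (hH : H ≤ g / 100)
    (t0 : 0 ≤ t) (tm : t ≤ m / 3) (m1 : m ≤ 1) (mb : m * (8 / 9) ≤ b)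
    (Fm : F ≤ m / 6) : κ * (exp (-2 * F) * g) ≤
      P + (b * γ + t * Λ) * g - (b * (α * α) + t * H) - t * α * (t * α) := by
  obtain ⟨γ1, γ2⟩ := abs_le.1 hγ
  have m0 : 0 ≤ m := by linarith
  have s1 : 1 - m / 3 ≤ exp (-2 * F) := by linarith [add_one_le_exp (-2 * F)]
  have s0 := (exp_pos (-2 * F)).le
  have a1 : -(g / 50) ≤ Λ * g - H := by nlinarith
  have a2 : -(m * g / 150) ≤ t * (Λ * g - H) := by
    nlinarith [mul_le_mul_of_nonneg_left a1 t0, mul_le_mul_of_nonneg_right tm g0]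
  have a3 : t ^ 2 ≤ m / 9 := by nlinarith
  have a4 := mul_le_mul_of_nonneg_right a3 (sq_nonneg α)
  have mg := mul_nonneg m0 g0
  have l1 := mul_le_mul_of_nonneg_right (show 49 / 100 ≤ γ by linarith) g0
  have l2 := mul_le_mul_of_nonneg_right (show γ ≤ 51 / 100 by linarith) g0
  rcases le_total (α ^ 2) (γ * g / 2) with h | h
  · have b1 : m * (8 / 9) * (g / 5) ≤ b * (γ * g - α ^ 2) :=
      mul_le_mul mb (by linarith) (by positivity) (by linarith)
    have b2 : m * α ^ 2 ≤ m * (g / 3) := mul_le_mul_of_nonneg_left (by linarith) m0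
    have b3 : κ * (exp (-2 * F) * g) ≤ P + m * g / 300 := by
      rcases le_total κ (-(1 / 100)) with k | k
      · nlinarith [mul_le_mul_of_nonneg_right k (mul_nonneg s0 g0),
          mul_le_mul_of_nonneg_right s1 g0, sq_nonneg α]
      · nlinarith [mul_le_mul_of_nonpos_left (mul_le_mul_of_nonneg_right s1 g0) k0,
          mul_le_mul_of_nonneg_right k mg]
    nlinarith
  · have b1 : 0 ≤ b * (γ * g - α ^ 2) := mul_nonneg (by linarith) (by linarith)
    have b2 := mul_nonpos_of_nonpos_of_nonneg k0 (mul_nonneg s0 g0)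
    have b3 := mul_le_mul_of_nonneg_right m1 (sq_nonneg α)
    have b4 := mul_le_mul_of_nonneg_right m1 g0
    nlinarith

theorem alg_sc (R0 : 0 ≤ R) (hγ : |γ - 1 / 2| ≤ 1 / 100) (hΛ : -(1 / 100) ≤ Λ) (t0 : 0 ≤ t)
    (tm : t ≤ m / 3) (m1 : m ≤ 1) (mb : m * (8 / 9) ≤ b) (F0 : 0 ≤ F) :
    R ≤ exp (2 * F) * (R + 4 * (b * γ + t * Λ) - 2 * (t ^ 2 * γ)) := by
  obtain ⟨γ1, γ2⟩ := abs_le.1 hγ
  have m0 : 0 ≤ m := by linarith
  have a3 : t ^ 2 ≤ m / 9 := by nlinarith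
  have a1 : m * (8 / 9) * (1 / 3) ≤ b * γ := mul_le_mul mb (by linarith) (by norm_num) (by linarith)
  have a2 := mul_le_mul_of_nonneg_left hΛ t0
  have a4 : t ^ 2 * γ ≤ m / 9 * 1 := mul_le_mul a3 (by linarith) (by linarith) (by positivity)
  have a5 : R ≤ R + 4 * (b * γ + t * Λ) - 2 * (t ^ 2 * γ) := by linarith
  exact a5.trans (le_mul_of_one_le_left (R0.trans a5) (one_le_exp (by linarith)))

end alg

/-- closeness to the cylinder at one point -/
structure Cl (G : E3 → Bil E3) (y : E3) : Prop where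
  p : ∀ v, fderiv ℝ ax y v ^ 2 - G y v v / 100 ≤ pG G y v v
  gam : |gamG G ax ax y - 1 / 2| ≤ 1 / 100
  lap : -(1 / 100) ≤ lapG G ax y
  hess : ∀ v, hessG G ax y v v ≤ G y v v / 100
  sc : 0 ≤ scG G y

variable {G : E3 → Bil E3} {x : E3} {L : ℝ}

theorem ph_nq : ContDiffOn ℝ ∞ (fun y : E3 => ph (‖y‖ ^ 2)) {0}ᶜ := fun y hy =>
  (ContDiffAt.comp (g := ph) y (ph_cd (pow_pos (norm_pos_iff.2 hy) 2))
    nq_cd.contDiffAt).contDiffWithinAt

theorem dph (hx : x ≠ 0) :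
    fderiv ℝ (fun y : E3 => ph (‖y‖ ^ 2)) x = th (‖x‖ ^ 2) • fderiv ℝ ax x := by
  have := norm_ne_zero_iff.2 hx
  rw [(rad_d (ph_d (by positivity))).fderiv, (ax_d hx).fderiv, smul_smul]
  congr 1; field_simp

theorem dth (hx : x ≠ 0) :
    HasFDerivAt (fun y : E3 => th (‖y‖ ^ 2)) (be (‖x‖ ^ 2) • fderiv ℝ ax x) x := by
  have := norm_ne_zero_iff.2 hx
  refine (rad_d ((th_cd (nq_gt x)).differentiableAt (by simp)).hasDerivAt).congr_fderiv ?_
  rw [(ax_d hx).fderiv, smul_smul, be]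
  congr 1; field_simp

/-- the bent part of the neck -/
theorem pin_pt (hG : IsMetricOn G (anl L)) (hx : x ∈ anl L) (h : 3 / 4 < ‖x‖ ^ 2) (c : Cl G x) :
    scG G x ≤ scG (srg 1 G) x ∧ ∀ κ ≤ 0, (∀ v, κ * G x v v ≤ pG G x v v) →
      ∀ v, κ * srg 1 G x v v ≤ pG (srg 1 G) x v v := by
  have h0 := anl_ne hx
  have e : srg 1 G =ᶠ[𝓝 x] cnf (fun y => ph (‖y‖ ^ 2)) G :=
    ((nq_t x).eventually (eventually_gt_nhds h)).mono fun y hy => srg_ph one_ne_zero hy.le
  have hf := ph_nq.mono fun y (hy : y ∈ anl L) => anl_ne hy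
  have hF : fderiv ℝ (fun y : E3 => ph (‖y‖ ^ 2)) =ᶠ[𝓝 x] fun y => th (‖y‖ ^ 2) • fderiv ℝ ax y :=
    mem_of_superset (isOpen_compl_singleton.mem_nhds h0) fun y hy => dph hy
  have ha : DifferentiableAt ℝ (fderiv ℝ ax) x := ((ax_cd.contDiffAt
    (isOpen_compl_singleton.mem_nhds h0)).fderiv_right (m := ∞) (by simp)).differentiableAt (by simp)
  have h1 : 1 / 2 ≤ ‖x‖ ^ 2 := by linarith
  refine ⟨?_, fun κ k0 hP v => ?_⟩
  · rw [scG_congr e, sc_cnf3 fr3 hG hf hx, lap_chain hG hx hF (dth h0) ha, gam_chain (dph h0)]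
    exact alg_sc c.sc c.gam c.lap (th_nonneg (sq_nonneg _)) (th_le h1) (mu_le _) (mu_le_be h1)
      (ph_nonneg (by linarith))
  · rw [(pG_loc e).self_of_nhds, e.self_of_nhds, pG_cnf3 fr3 hG hf hx,
      lap_chain hG hx hF (dth h0) ha, hess_chain hF (dth h0) ha, dph h0]
    exact alg_sec ((met_model.2 hG).nonneg hx v) k0 (hP v) (c.p v) (sq_le_gam hG hx ax v) c.gam
      c.lap (c.hess v) (th_nonneg (sq_nonneg _)) (th_le h1) (mu_le _) (mu_le_be h1) (ph_le h1)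

theorem ev_cl {ι : Type} {l : Ultrafilter ι} {G : ι → E3 → Bil E3} (h : Cv l {0}ᶜ G cyl)
    (hx : x ≠ 0) : ∀ᶠ q in l ×ˢ 𝓝[{0}ᶜ] x, Cl (G q.1) q.2 := by
  have hS := Nice.of_isOpen (isOpen_compl_singleton (x := (0 : E3)))
  have ha : Cv (l : Filter ι) {0}ᶜ (fun _ => ax) ax := .const hS.ud ax_cd
  have hp : ∀ v, v ≠ 0 → 0 < ((1 / 100 : ℝ) • cyl x) v v := fun v hv =>
    mul_pos (by norm_num) (cyl_metric.pos x hx v hv)
  have g1 := (h.tendsto hS hx).const_smul (1 / 100 : ℝ)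
  have p1 := g1.add (((cv_pG h cyl_metric).tendsto hS hx).sub
    (((pG_cd cyl_metric).continuousOn x hx).tendsto.comp tendsto_snd))
  have p2 := g1.sub ((cv_hessG h cyl_metric ha).tendsto hS hx)
  have p3 := (cv_gamG h cyl_metric ha ha).tendsto hS hx
  have p4 := (cv_lapG h cyl_metric ha).tendsto hS hx
  have p5 := (cv_scG h cyl_metric).tendsto hS hx
  rw [sub_self, add_zero] at p1
  rw [hess_ax hx, sub_zero] at p2
  rw [gam_ax hx] at p3
  rw [lap_ax hx] at p4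
  rw [sc_cyl hx] at p5
  filter_upwards [ev_nonneg p1 hp, ev_nonneg p2 hp,
    p3.eventually (closedBall_mem_nhds _ (by norm_num : (0 : ℝ) < 1 / 100)),
    p4.eventually (eventually_ge_nhds (by norm_num : -(1 / 100 : ℝ) < 0)),
    p5.eventually (eventually_ge_nhds one_pos), ev_mem _ _ x] with q h1 h2 h3 h4 h5 h6
  refine ⟨fun v => ?_, h3, h4, fun v => ?_, h5⟩
  · have := h1 v
    simp only [add_apply, sub_apply, smul_apply, smul_eq_mul, Function.comp, pG_cyl h6] at this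
    linarith
  · have := h2 v
    simp only [sub_apply, smul_apply, smul_eq_mul] at this
    linarith

theorem pG_cap_pos (hx : ‖x‖ ^ 2 < 1) (v : E3) (hv : v ≠ 0) : 0 < pG cap x v v :=
  (mul_pos (lt_min (cA_pos (sq_nonneg _) hx) (cB_pos (sq_nonneg _)))
    (pow_pos (norm_pos_iff.2 hv) 2)).trans_le (pG_cap_ge x v)

/-- the cap has nonnegative sectional curvature -/
theorem secGe_cap (x : E3) : SecGe cap x 0 :=
  (secGe_pG fr3 (cap_metric isOpen_univ) (mem_univ x)).2 fun v => by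
    simpa using pG_cap_nonneg x v

theorem exists_pin : ∃ C, ∃ δ₀ > 0, ∀ (G : E3 → Bil E3) (δ : ℝ), NK G 1 δ → δ ≤ δ₀ →
    ∀ x ∈ closedBall (0 : E3) 1, (1 / 2 ≤ scG (srg 1 G) x ∧ scG (srg 1 G) x ≤ C) ∧
      SecGe (srg 1 G) x (-1) ∧ (SecGe (srg 1 G) x 0 ∨ x ∈ anl δ⁻¹ ∧ scG G x ≤ scG (srg 1 G) x ∧
        ∀ κ ≤ 0, SecGe G x κ → SecGe (srg 1 G) x κ) := by
  have hc := cap_metric isOpen_univ
  have hS := Nice.of_isOpen (isOpen_univ (X := E3))
  obtain ⟨C, hC⟩ := (isCompact_closedBall (0 : E3) 1).bddAbove_image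
    ((scG_cd hc).continuousOn.mono (subset_univ _))
  refine ⟨C + 1, exists_delta fun G δ H hδ => ?_⟩
  have H' := Eventually.of_forall (f := hyperfilter ℕ) H
  have c1 := cv_neck H' hδ
  have c2 := cv_srg H' hδ
  simp only [one_pow, inv_one, one_smul] at c1 c2
  have hA : IsCompact (closedBall (0 : E3) 1 ∩ {y | 3 / 4 ≤ ‖y‖ ^ 2}) :=
    (isCompact_closedBall _ _).inter_right (isClosed_le continuous_const nq_cd.continuous)
  have hB : IsCompact (closedBall (0 : E3) 1 ∩ {y | ‖y‖ ^ 2 ≤ 3 / 4}) :=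
    (isCompact_closedBall _ _).inter_right (isClosed_le nq_cd.continuous continuous_const)
  have hA0 : closedBall (0 : E3) 1 ∩ {y | 3 / 4 ≤ ‖y‖ ^ 2} ⊆ {0}ᶜ := by
    rintro y hy rfl
    have := hy.2
    norm_num at this
  filter_upwards [ev_compact hA hA0 fun x hx => ev_cl c1 (hA0 hx),
    ev_compact hB (subset_univ _) fun x hx => ev_nonneg ((cv_pG c2 hc).tendsto hS (mem_univ x))
      (pG_cap_pos (lt_of_le_of_lt hx.2 (by norm_num))),
    ev_compact (isCompact_closedBall (0 : E3) 1) (subset_univ _) fun x _ => ev_nonneg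
      ((c2.tendsto hS (mem_univ x)).add ((cv_pG c2 hc).tendsto hS (mem_univ x))) fun v hv =>
        add_pos_of_pos_of_nonneg (hc.pos x (mem_univ x) v hv) (pG_cap_nonneg x v),
    cv_near' isOpen_univ (cv_scG c2 hc) (isCompact_closedBall (0 : E3) 1) (subset_univ _)
      one_half_pos, hδ.eventually (eventually_le_nhds one_pos), ev_ball H' hδ 1]
    with n h1 h2 h3 h4 h5 h6 x hx
  have hm := (H n).srg_metric h5
  have hb := closedBall_subset_ball h6 hx
  have h7 := abs_lt.1 (h4 x hx)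
  refine ⟨⟨by linarith [sc_cap_ge x], by linarith [hC (mem_image_of_mem _ hx)]⟩,
    (secGe_pG fr3 hm hb).2 fun v => by
      linarith [(h3 x hx v).trans_eq (by rw [add_apply, add_apply])], ?_⟩
  rcases le_or_gt (‖x‖ ^ 2) (3 / 4) with h8 | h8
  · exact Or.inl ((secGe_pG fr3 hm hb).2 fun v => by simpa using h2 x ⟨hx, h8⟩ v)
  have h9 := mem_anl_of (H n).dpos h5 hb (by linarith)
  obtain ⟨k1, k2⟩ := pin_pt (H n).met h9 h8 (h1 x ⟨hx, h8.le⟩)
  exact Or.inr ⟨h9, k1, fun κ k0 hs => (secGe_pG fr3 hm hb).2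
    (k2 κ k0 ((secGe_pG fr3 (H n).met h9).1 hs))⟩

end Vale.Agent.P216S
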