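import Vale.Agent.P216S.Out
import Vale.Agent.P216SG.Neck
import Vale.Agent.P216B.Sp

/-! Volumes in the cap; the surgery metric with an unmodified collar. -/

open scoped ContDiff Topology RealInnerProductSpace Manifold ENNReal
open Set Filter Real Metric MeasureTheory

set_option maxSynthPendingDepth 3

noncomputable section

namespace Vale.Agent.P216S

open Vale.Agent.P219.RG Vale.Agent.P216R Vale.Agent.P216U Vale.Agent.P216BF
open Vale.Agent.P216SG (euc cyl dev Sm anl ann Neck dil norm_dil comap_dil ld_dil dil_dil dil_ne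
  dil_mem_anl contDiff_dil lv exists_dil mem_anl anl_mono cann isCompact_cann cv_comap)

variable {G : E3 → Bil E3} {x : E3} {c h δ ε : ℝ}

theorem dil_inj (c : ℝ) : Function.Injective (dil c) := Function.LeftInverse.injective (dil_dil c)

theorem dil_dil' (c : ℝ) (x : E3) : dil c (dil (-c) x) = x := by simpa using dil_dil (-c) x

theorem vol_dil (c : ℝ) (G : E3 → Bil E3) {A : Set E3} (hA : MeasurableSet A) :
    vol G (dil c '' A) = vol (comap (dil c) G) A :=
  vol_image G (ld_dil c) (dil_inj c).injOn isLindelof_univ Subset.rfl hA (subset_univ A)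

/-- linear volume growth of the cap -/
theorem vol_cap : ∃ V > 0, ∀ s ≥ 0, vol cap (closedBall 0 (exp s)) ≤ ENNReal.ofReal (V * (s + 1)) := by
  have h1 := vol_lt_top met_cap (isCompact_closedBall (0 : E3) 1) (subset_univ _)
  have h2 := vol_lt_top met_cyl (isCompact_cann (a := 1) (b := exp 1))
    fun y hy => norm_pos_iff.1 (one_pos.trans_le hy.1)
  obtain ⟨V, V0, k1, k2⟩ : ∃ V > 0, vol cap (closedBall (0 : E3) 1) ≤ ENNReal.ofReal V ∧
      vol cyl (cann 1 (exp 1)) ≤ ENNReal.ofReal V :=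
    ⟨max 1 (max _ _), by positivity, (ENNReal.ofReal_toReal h1.ne).ge.trans
      (ENNReal.ofReal_le_ofReal (le_max_of_le_right (le_max_left _ _))),
      (ENNReal.ofReal_toReal h2.ne).ge.trans
        (ENNReal.ofReal_le_ofReal (le_max_of_le_right (le_max_right _ _)))⟩
  have key : ∀ n : ℕ, vol cap (closedBall 0 (exp n)) ≤ ENNReal.ofReal (V * (n + 1)) := fun n => by
    induction n with
    | zero => simpa using k1
    | succ n ih =>
      have e : closedBall (0 : E3) (exp (n + 1 : ℕ)) ⊆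
          closedBall 0 (exp n) ∪ dil n '' cann 1 (exp 1) := fun y hy => by
        refine (le_total ‖y‖ (exp n)).imp mem_closedBall_zero_iff.2 fun k =>
          ⟨dil (-n) y, ?_, dil_dil' _ y⟩
        rw [mem_closedBall_zero_iff, Nat.cast_succ, exp_add] at hy
        rw [cann, mem_ofPred_eq, norm_dil, exp_neg]
        exact ⟨(le_inv_mul_iff₀ (exp_pos _)).2 (by simpa using k),
          (inv_mul_le_iff₀ (exp_pos _)).2 hy⟩
      have m := (isCompact_cann (a := 1) (b := exp 1))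
      have e2 : vol cap (dil n '' cann 1 (exp 1)) = vol cyl (cann 1 (exp 1)) := by
        rw [vol_congr isLindelof_univ (m.image (contDiff_dil (n := 0) _).continuous).measurableSet
          (subset_univ _) (h := cyl), vol_dil _ _ m.measurableSet, comap_dil_cyl]
        rintro _ ⟨y, hy, rfl⟩
        exact cap_eq_cyl (norm_dil _ y ▸ one_le_mul_of_one_le_of_one_le (one_le_exp n.cast_nonneg) hy.1)
      refine (measure_mono e).trans ((measure_union_le _ _).trans ((add_le_add ih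
        (e2.trans_le k2)).trans_eq ?_))
      rw [← ENNReal.ofReal_add (by positivity) V0.le]
      push_cast; ring_nf
  refine ⟨2 * V, by positivity, fun s hs => (measure_mono (closedBall_subset_closedBall
    (exp_le_exp.2 (Nat.le_ceil s)))).trans ((key _).trans (ENNReal.ofReal_le_ofReal ?_))⟩
  nlinarith [Nat.ceil_lt_add_one hs]

/-- volumes for the surgery metric -/
theorem NK.vol_le (H : NK G h δ) (h1 : δ ≤ 1) {A : Set E3} (hA : MeasurableSet A)
    (hs : A ⊆ ball 0 (exp δ⁻¹)) : vol (srg h G) A ≤ ENNReal.ofReal (8 * h ^ 3) * vol cap A := by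
  have := vol_le_mul isLindelof_univ hA (subset_univ _) (c := 2 * h) (by linarith [H.hpos])
    (fun y hy => (met_model.2 (H.srg_metric h1)).pd (hs hy)) (fun y _ => met_cap.pd (mem_univ y))
    fun y hy v => (H.le_cap h1 (hs hy) v).trans (by
      nlinarith [mul_nonneg (sq_nonneg h) (cap_nonneg y v)])
  rwa [fr3, show (2 * h) ^ 3 = 8 * h ^ 3 by ring] at this

/-! ### the collar -/

/-- the surgery metric, bent only inside the ball of radius `exp (-c)` -/
def srd (c h : ℝ) (G : E3 → Bil E3) : E3 → Bil E3 := comap (dil c) (srg h (comap (dil (-c)) G))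

/-- the cap with a cylindrical collar -/
def cpd (c : ℝ) : E3 → Bil E3 := comap (dil c) cap

theorem comap_dil_dil (c : ℝ) (G : E3 → Bil E3) : comap (dil c) (comap (dil (-c)) G) = G := by
  ext1 x
  rw [comap_dil, comap_dil, dil_dil, smul_smul, ← mul_pow, ← exp_add]; simp

theorem comap_dil_dil' (c : ℝ) (G : E3 → Bil E3) : comap (dil (-c)) (comap (dil c) G) = G := by
  simpa using comap_dil_dil (-c) G

theorem one_le_dil (hx : exp (-c) ≤ ‖x‖) : 1 ≤ ‖dil c x‖ := by
  rwa [norm_dil, ← inv_mul_le_iff₀ (exp_pos c), mul_one, ← exp_neg]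

theorem srd_out (hh : h ≠ 0) (hx : exp (-c) ≤ ‖x‖) : srd c h G x = G x := by
  rw [srd, comap_congr_right _ (srg_out hh (one_le_dil hx)), comap_dil_dil]

theorem cpd_out (hx : exp (-c) ≤ ‖x‖) : cpd c x = cyl x := by
  rw [cpd, comap_congr_right _ (cap_eq_cyl (one_le_dil hx)), comap_dil_cyl]

theorem srd_ev (hh : h ≠ 0) (hx : exp (-c) < ‖x‖) : srd c h G =ᶠ[𝓝 x] G :=
  (continuous_norm.continuousAt.eventually (eventually_gt_nhds hx)).mono fun _ k => srd_out hh k.le

theorem met_cpd (c : ℝ) : Met (cpd c) univ := met_cap.comap (ld_dil c) (mapsTo_univ _ _)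

theorem li_cpd (c : ℝ) (x : E3) : LI (cpd c) cap (dil c) x :=
  li_comap met_cap (ld_dil c) (mem_univ x) (mem_univ _)

theorem cpl_cpd (c : ℝ) : Cpl (cpd c) univ := fun x _ r =>
  Cpt.of_image (R := r + 1) (g := cap) (by
    rw [image_univ_of_surjective fun y => ⟨_, dil_dil' c y⟩]
    exact cpl_cap.cpt (mem_univ _) _) (ld_dil c) (dil_inj c).injOn (fun _ _ => rfl) (mem_univ x) r
    (lt_add_one r)

theorem NK.shift (H : NK G h δ) (h0 : 0 ≤ c) (hc : c ≤ (2 * δ)⁻¹) :
    NK (comap (P216SG.dil (-c)) G) h (2 * δ) :=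
  H.dil (by linarith [H.dpos]) (by rw [abs_neg, abs_of_nonneg h0]; linarith [inv_half δ])

theorem dil_mem_ball {L : ℝ} (hL : 0 < L) (hx : ‖x‖ ≤ exp (-c)) : dil c x ∈ ball (0 : E3) (exp L) := by
  rw [mem_ball_zero_iff, norm_dil]
  refine lt_of_le_of_lt ?_ (one_lt_exp_iff.2 hL)
  rwa [← le_inv_mul_iff₀ (exp_pos c), mul_one, ← exp_neg]

theorem mem_anl_out {L : ℝ} (hc : c ≤ L) (hx : x ∈ ball (0 : E3) (exp L)) (k : exp (-c) < ‖x‖) :
    x ∈ anl L := ⟨(exp_le_exp.2 (neg_le_neg hc)).trans_lt k, mem_ball_zero_iff.1 hx⟩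

/-- all the properties of the surgery metric `S` in the chart of the neck -/
structure Out (C c h δ : ℝ) (G S : E3 → Bil E3) : Prop where
  met : Met S (ball 0 (exp δ⁻¹))
  out : ∀ x, exp (-c) ≤ ‖x‖ → S x = G x
  le : ∀ x ∈ anl (2 * δ)⁻¹, ∀ v, S x v v ≤ G x v v
  cmp : ∀ x ∈ ball (0 : E3) (exp δ⁻¹), ∀ v,
    |S x v v - h ^ 2 * cpd c x v v| ≤ δ * (h ^ 2 * cpd c x v v)
  sc : ∀ x ∈ ball (0 : E3) (exp (2 * δ)⁻¹), 1 / 2 ≤ h ^ 2 * Sc S x ∧ h ^ 2 * Sc S x ≤ C
  imp : ∀ x ∈ ball (0 : E3) (exp δ⁻¹), Imp G S (anl δ⁻¹) x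
  vol : ∀ s ≥ 0, s + c < (2 * δ)⁻¹ →
    vol S (closedBall 0 (exp s)) ≤ ENNReal.ofReal (C * h ^ 3 * (s + c + 1))

theorem NK.li_srd (H : NK G h δ) (h0 : 0 ≤ c) (hc : c ≤ (2 * δ)⁻¹) (h1 : 2 * δ ≤ 1)
    (hx : P216SG.dil c x ∈ ball (0 : E3) (exp (2 * δ)⁻¹)) :
    LI (srd c h G) (srg h (comap (P216SG.dil (-c)) G)) (P216SG.dil c) x :=
  li_comap (met_model.2 ((H.shift h0 hc).srg_metric h1)) (ld_dil c) (mem_univ x) hx

theorem NK.met_srd (H : NK G h δ) (h0 : 0 ≤ c) (hc : c ≤ (2 * δ)⁻¹) (h1 : 2 * δ ≤ 1) :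
    Met (srd c h G) (ball 0 (exp δ⁻¹)) := by
  have h2 := H.dpos
  refine met_of_forall fun x hx => ?_
  obtain ⟨W, m, k⟩ : ∃ W, Met (srd c h G) W ∧ x ∈ W := by
    rcases le_or_gt ‖x‖ (exp (-c)) with k | k
    · exact (H.li_srd h0 hc h1 (dil_mem_ball (by positivity) k)).met'
    · have o : IsOpen {y : E3 | exp (-c) < ‖y‖} := isOpen_lt continuous_const continuous_norm
      exact ⟨_, ((met_model.2 H.met).mono ((anl_open _).inter o) inter_subset_left).congr
        fun y hy => srd_out H.hpos.ne' hy.2.le,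
        mem_anl_out (hc.trans (inv_anti₀ h2 (by linarith))) hx k, k⟩
  exact ⟨W ∩ _, ⟨k, hx⟩, inter_subset_right, m.mono (m.isOpen.inter isOpen_ball) inter_subset_left⟩

/-- **the surgery metric** -/
theorem exists_out : ∃ C, ∃ δ₀ > 0, ∀ (G : E3 → Bil E3) (c h δ : ℝ), NK G h δ → δ ≤ δ₀ → 0 ≤ c →
    c ≤ (2 * δ)⁻¹ → Out C c h δ G (srd c h G) := by
  obtain ⟨C, δ₀, h0, K⟩ := srg_curv
  obtain ⟨δ₁, h1, K1⟩ := exists_srg_le
  obtain ⟨δ₂, h2, K2⟩ := nk_curv one_half_pos
  obtain ⟨V, V0, K3⟩ := vol_cap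
  refine ⟨max (max C 2) (8 * V), min (min (δ₀ / 2) (δ₁ / 2)) (min δ₂ (1 / 2)), by positivity,
    fun G c h δ H hδ c0 hc => ?_⟩
  simp only [le_min_iff] at hδ
  have d0 := H.dpos
  have d1 : 2 * δ ≤ 1 := by linarith [hδ.2.2]
  have hh := H.hpos.ne'
  have S := H.shift c0 hc
  have hL : c ≤ δ⁻¹ := hc.trans (inv_anti₀ d0 (by linarith))
  have b := fun {L} (hL : 0 < L) {x : E3} (k : ‖x‖ ≤ exp (-c)) => dil_mem_ball hL k
  have li := fun {x : E3} (k : ‖x‖ ≤ exp (-c)) => H.li_srd c0 hc d1 (b (by positivity) k)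
  obtain ⟨K4, K5⟩ := K _ h _ S (by linarith [hδ.1.1])
  refine ⟨H.met_srd c0 hc d1, fun x => srd_out hh, fun x hx v => ?_, fun x hx v => ?_,
    fun x hx => ?_, fun x hx => ?_, fun s hs k => ?_⟩
  rotate_right
  · have m : MeasurableSet (closedBall (0 : E3) (exp s)) := measurableSet_closedBall
    have e : dil c '' closedBall (0 : E3) (exp s) ⊆ closedBall 0 (exp (s + c)) := by
      rintro _ ⟨y, hy, rfl⟩
      rw [mem_closedBall_zero_iff] at hy ⊢
      rw [norm_dil, exp_add, mul_comm]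
      gcongr
    rw [srd, ← vol_dil c _ m]
    refine (measure_mono e).trans ((S.vol_le d1 measurableSet_closedBall (closedBall_subset_ball
      (exp_lt_exp.2 k))).trans ((mul_le_mul_right (K3 _ (by linarith)) _).trans ?_))
    have := H.hpos
    rw [← ENNReal.ofReal_mul (by positivity)]
    refine ENNReal.ofReal_le_ofReal (le_trans (le_of_eq (by ring)) (mul_le_mul_of_nonneg_right
      (mul_le_mul_of_nonneg_right (le_max_right _ (8 * V)) (by positivity)) (by linarith)))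
  all_goals rcases le_or_gt ‖x‖ (exp (-c)) with k | k
  · have := K1 _ h _ S (by linarith [hδ.1.2]) (dil c x) ⟨hx.1.trans_le (by
      rw [norm_dil]; exact le_mul_of_one_le_left (norm_nonneg x) (one_le_exp c0)),
      mem_ball_zero_iff.1 (b (by positivity) k)⟩
    conv_rhs => rw [← comap_dil_dil c G]
    exact this _
  · rw [srd_out hh k.le]
  · have := S.cmp_cap d1 (b (by positivity) k) (md E3 (dil c) x v)
    rwa [mul_div_cancel_left₀ _ two_ne_zero] at this
  · rw [srd_out hh k.le, cpd_out k.le]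
    refine (H.cmp_cyl (mem_anl_out hL hx k) v).trans ?_
    have := mul_nonneg (sq_nonneg h) (cyl_nonneg x v)
    gcongr; linarith
  · rw [(li k).Sc]
    exact (K4 _ (b (by positivity) k)).imp_right fun a => le_max_of_le_left (le_max_of_le_left a)
  · have := abs_le.1 (K2 G h δ H hδ.2.1 x (mem_anl_out hc hx k)).1
    rw [Sc_congr (srd_ev hh k)]
    exact ⟨by linarith, le_max_of_le_left (le_max_of_le_right (by linarith))⟩
  · refine (K5 _ (b (by positivity) k)).imp ((li k).SecGe 0).2 fun ⟨a1, a2, a3⟩ => ?_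
    have a4 : x ∈ anl δ⁻¹ := dil_dil c x ▸ dil_mem_anl
      (by rw [abs_neg, abs_of_nonneg c0]; linarith [inv_half δ]) a1
    have l2 : LI G (comap (dil (-c)) G) (dil c) x := by
      simpa only [comap_dil_dil] using li_comap (met_model.2 S.met) (ld_dil c) (mem_univ x) a1
    exact ⟨a4, by rwa [l2.Sc, (li k).Sc], fun κ k0 hs =>
      ((li k).SecGe κ).2 (a3 κ k0 ((l2.SecGe κ).1 hs))⟩
  · exact Or.inr ⟨mem_anl_out hL hx k, (Sc_congr (srd_ev hh k)).ge,
      fun κ _ => (SecGe_congr (srd_ev hh k) κ).2⟩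

theorem srd_rmB (k : ℕ) : ∃ C, ∃ δ₀ > 0, ∀ (G : E3 → Bil E3) (c h δ : ℝ), NK G h δ → δ ≤ δ₀ →
    0 ≤ c → c ≤ (2 * δ)⁻¹ → ∀ x ∈ ball (0 : E3) (exp (2 * δ)⁻¹),
      RmB (srd c h G) k x (C / h ^ (k + 2)) := by
  obtain ⟨C, δ₀, h0, K⟩ := srg_rmB k
  obtain ⟨C1, δ₁, h1, K1⟩ := nk_rmB k
  refine ⟨max C C1, min (min (δ₀ / 2) δ₁) (1 / 2), by positivity, fun G c h δ H hδ c0 hc x hx => ?_⟩
  simp only [le_min_iff] at hδ
  have := H.hpos
  have h2 := H.dpos
  rcases le_or_gt ‖x‖ (exp (-c)) with a | a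
  · exact rmB_mono (((H.li_srd c0 hc (by linarith [hδ.2]) (dil_mem_ball (by positivity) a)).RmB
      k _).2 (K _ h _ (H.shift c0 hc) (by linarith [hδ.1.1]) _ (dil_mem_ball (by positivity) a)))
      (by gcongr; exact le_max_left _ _)
  · exact rmB_mono ((RmB_congr (srd_ev this.ne' a) _ _).2 (K1 G h δ H hδ.1.2 x
      (mem_anl_out hc hx a))) (by gcongr; exact le_max_right _ _)

/-- convergence to the cap with collar -/
theorem cv_srd {ι : Type} {l : Filter ι} {G : ι → E3 → Bil E3} {h δ : ι → ℝ} (h0 : 0 ≤ c)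
    (H : ∀ᶠ n in l, NK (G n) (h n) (δ n)) (hδ : Tendsto δ l (𝓝 0)) :
    Cv l univ (fun n => (h n ^ 2)⁻¹ • srd c (h n) (G n)) (cpd c) := by
  have h1 : Tendsto (fun n => 2 * δ n) l (𝓝 0) := by simpa using hδ.const_mul 2
  have h2 : ∀ᶠ n in l, NK (comap (dil (-c)) (G n)) (h n) (2 * δ n) := by
    filter_upwards [H, (tendsto_inv H hδ).eventually_ge_atTop (2 * c)] with n a b
    exact a.shift h0 (by linarith [inv_half (δ n)])
  simpa only [comap_smul, srd, cpd] using cv_comap isOpen_univ isOpen_univ (cv_srg h2 h1)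
    (contDiff_dil c).contDiffOn (mapsTo_univ _ _)

end Vale.Agent.P216S
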