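import Vale.Agent.P216S.Col
import Vale.Agent.P216FA.Defs

/-! The tip of a fresh cap. -/

open scoped ContDiff Topology RealInnerProductSpace Manifold ENNReal
open Set Filter Real Metric MeasureTheory

set_option maxSynthPendingDepth 3

noncomputable section

namespace Vale.Agent.P216S

open Vale.Agent.P219.RG Vale.Agent.P216R Vale.Agent.P216U Vale.Agent.P216BF
open Vale.Agent.P216FA (Tip)
open Vale.Agent.P216MP (li_rho ricGe_iff PinchAt li_pinch)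
open Vale.Agent.P216SG (euc cyl dev Sm anl ann Neck dil norm_dil comap_dil ld_dil dil_dil dil_ne
  contDiff_dil emb_dil)

section tip

variable {M : Type} [TopologicalSpace M] [ChartedSpace E3 M] [IsManifold 𝓘(ℝ, E3) ∞ M]
  [MeasurableSpace M] [BorelSpace M] {N : Type} [TopologicalSpace N] [ChartedSpace E3 N]
  [IsManifold 𝓘(ℝ, E3) ∞ N] [MeasurableSpace N] [BorelSpace N] {c : ℕ → ℝ} {g : Ten E3 M}
  {U : Set M} {h η : ℝ}

theorem tip_smul {p : M} (H : Tip c g U p 1 η) (hg : Met g U) (hU : IsLindelof U) (hh : 0 < h) :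
    Tip c (h ^ 2 • g) U p h η := by
  have h2 := pow_pos hh 2
  have e : ∀ y, h ^ 2 * Sc (h ^ 2 • g) y = 1 ^ 2 * Sc g y := fun y => by
    rw [Sc_smul _ _ h2.ne', mul_inv_cancel_left₀ h2.ne', one_pow, one_mul]
  have b : bl (h ^ 2 • g) U p (h / η) = bl g U p (1 / η) := by rw [div_eq_mul_one_div, bl_smul hh]
  refine ⟨H.mem, fun y hy => e y ▸ H.sc y (b ▸ hy), fun j hj y hy => ?_, e p ▸ H.top,
    H.low.imp fun q hq => ⟨by rw [mul_comm, bl_smul hh]; simpa using hq.1, e q ▸ hq.2⟩,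
    fun v => ?_, fun ρ hρ => ?_⟩
  · rw [hg.RmB_smul (bl_subset hy) hh, mul_div_cancel₀ _ (pow_pos hh _).ne']
    simpa using H.rm j hj y (b ▸ hy)
  · rw [Ric_smul _ h2.ne']
    refine le_of_eq_of_le ?_ (H.ric v)
    simp only [Pi.smul_apply, smul_apply, smul_eq_mul]
    field_simp
  · rw [← mul_div_cancel₀ ρ hh.ne', bl_smul hh,
      vol_smul hU (hg.isOpen_bl p _).measurableSet bl_subset hh, fr3]
    refine (mul_le_mul_right (H.vol (ρ / h) ⟨(one_le_div hh).2 hρ.1, (div_le_iff₀' hh).2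
      (hρ.2.trans_eq (div_eq_mul_one_div _ _))⟩) _).trans_eq ?_
    rw [← ENNReal.ofReal_mul (by positivity)]
    congr 1; ring

theorem tip_push {k : Ten E3 N} {S : Set N} {p : N} {f : N → M} (H : Tip c k S p h η)
    (hc : Cpt k S p (h / η)) (hk : Met k S) (hS : IsLindelof S) (hf : LD E3 f S) (hi : InjOn f S)
    (hm : MapsTo f S U) (he : EqOn k (comap f g) S) (hg : Met g U) (hU : Hs U) :
    Tip c g U (f p) h η := by
  have li : ∀ y ∈ S, LI k g f y := fun y hy =>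
    ⟨⟨U, hg, hm hy⟩, ⟨S, hf, hy⟩, he.eventuallyEq_of_mem (hf.isOpen.mem_nhds hy)⟩
  have b := fun r (hr : r ≤ h / η) => (hc.push hf hi he H.mem hm hU hr).1
  refine ⟨hm H.mem, fun y hy => ?_, fun j hj y hy => ?_, (li p H.mem).Sc ▸ H.top,
    H.low.elim fun q hq => ⟨f q, ((hf.ed_le hm p q).trans_eq (ed_congr he ▸ rfl)).trans_lt hq.1,
      (li q (bl_subset hq.1)).Sc ▸ hq.2⟩, (ricGe_iff hg (hm H.mem)).2
      (li_rho (li p H.mem) ▸ (ricGe_iff hk H.mem).1 H.ric), fun ρ hρ => ?_⟩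
  · obtain ⟨z, hz, rfl⟩ := b _ le_rfl ▸ hy
    exact (li z (bl_subset hz)).Sc ▸ H.sc z hz
  · obtain ⟨z, hz, rfl⟩ := b _ le_rfl ▸ hy
    exact ((li z (bl_subset hz)).RmB j _).1 (H.rm j hj z hz)
  · have m := (hk.isOpen_bl p ρ).measurableSet
    rw [← b ρ hρ.2]
    exact (vol_image_le g hf hS Subset.rfl m bl_subset).trans
      ((vol_congr hS m bl_subset (he.mono bl_subset)).symm.trans_le (H.vol ρ hρ))

end tip

theorem w1_zero : w1 0 = 1 := by simp [w1, kk_zero]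

theorem two_le_sc : 2 ≤ scG cap 0 := by
  obtain ⟨c, hc, e⟩ := exists_hasDerivAt_eq_slope KK kk one_half_pos KK_cd.continuous.continuousOn
    fun u _ => KK_d u
  rw [kk_zero hc.2.le, eq_div_iff (by norm_num), zero_mul] at e
  have h1 := (exp_ww one_half_pos).trans_le (exp_ph_le one_half_pos)
  have h2 : exp (-2 * ww (1 / 2)) * exp (2 * ww 0) = 4 / 9 := by
    rw [← exp_add, show -2 * ww (1 / 2) + 2 * ww 0 = log (4 / 9) by
      have : log (4 / 9 : ℝ) = 2 * (log (1 / 2) - log (3 / 4)) := by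
        rw [← log_div (by norm_num) (by norm_num), ← log_rpow (by norm_num)]; norm_num
      simp only [ww]; norm_num at e this ⊢; linarith, exp_log (by norm_num)]
  rw [sc_cap]
  simp only [norm_zero, cA, cB, zero_pow two_ne_zero, w1_zero]
  nlinarith [exp_pos (2 * ww 0)]

theorem pG_tip (v : E3) (hv : v ≠ 0) : 0 < (pG cap 0 - (1 / 10 : ℝ) • cap 0) v v := by
  have h1 := pG_cap_ge 0 v
  have h2 := cap_le_euc 0 v
  have h3 := pow_pos (norm_pos_iff.2 hv) 2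
  simp only [norm_zero, cA, cB, zero_pow two_ne_zero, w1_zero] at h1
  norm_num at h1
  simp only [sub_apply, smul_apply, smul_eq_mul]
  linarith

theorem NK.bl_sub {G : E3 → Bil E3} {δ ρ : ℝ} (H : NK G 1 δ) (h1 : δ ≤ 1) :
    bl (srg 1 G) (ball 0 (exp δ⁻¹)) 0 ρ ⊆ closedBall 0 (exp (2 * ρ)) := fun y hy => by
  have h0 : 0 ≤ ρ := (ENNReal.ofReal_pos.1 (zero_le.trans_lt hy)).le
  have h := (log_le_ed (G := srg 1 G) isOpen_ball two_pos (fun y hy v => by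
    linarith [H.cap_le h1 hy v, cap_nonneg y v]) 0 y).trans (mul_le_mul_right hy.le _)
  rw [← ENNReal.ofReal_mul (by norm_num), ← ofReal_norm,
    ENNReal.ofReal_le_ofReal_iff (by positivity)] at h
  simp only [norm_zero, zero_pow two_ne_zero, add_zero, log_one, sub_zero] at h
  have h2 := (log_le_iff_le_exp (by positivity)).1 (abs_le.1 h).2
  refine mem_closedBall_zero_iff.2 (le_of_sq_le_sq ?_ (exp_pos _).le)
  rw [← exp_nat_mul, Nat.cast_ofNat, ← mul_assoc]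
  linarith

theorem NK.mem_bl {G : E3 → Bil E3} {h δ r a : ℝ} (H : NK G h δ) (h1 : δ ≤ 1) (hr : r < exp δ⁻¹)
    (ha : 7 * r < a) {x : E3} (hx : x ∈ closedBall (0 : E3) r) :
    x ∈ bl (srg h G) (ball 0 (exp δ⁻¹)) 0 (a * h) := by
  have h0 := H.hpos
  have h2 := mem_closedBall_zero_iff.1 hx
  refine (ed_le_norm (convex_ball _ _) (mem_ball_self (exp_pos _)) (closedBall_subset_ball hr hx)
    (C := (7 * h) ^ 2) fun u hu v => (H.le_cap h1 hu v).trans ?_).trans_lt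
    ((ENNReal.ofReal_lt_ofReal_iff_of_nonneg (by positivity)).2 ?_)
  · nlinarith [mul_le_mul_of_nonneg_left (cap_le_euc u v) (sq_nonneg h),
      mul_nonneg (sq_nonneg h) (sq_nonneg ‖v‖)]
  · rw [sqrt_sq (by positivity), zero_sub, norm_neg]
    nlinarith

theorem tip_chart (a : ℝ) : ∃ c : ℕ → ℝ, (∀ j, 1 ≤ c j) ∧ a ≤ c 0 ∧ ∀ η > 0, ∃ δ₀ > 0,
    ∀ (G : E3 → Bil E3) (δ : ℝ), NK G 1 δ → δ ≤ δ₀ →
      Tip c (srg 1 G) (ball 0 (exp δ⁻¹)) 0 1 η ∧ Cpt (srg 1 G) (ball 0 (exp δ⁻¹)) 0 (1 / η) := by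
  choose C hC using exists_rmB_cap
  obtain ⟨D, hD⟩ := exists_sc_cap
  obtain ⟨V, V0, hV⟩ := vol_cap
  obtain ⟨q, hq⟩ := exists_norm_eq E3 (zero_le_two (α := ℝ))
  obtain ⟨A, a1, a2, a3, a4⟩ : ∃ A, a ≤ A ∧ 15 ≤ A ∧ D + 1 ≤ A ∧ 24 * V ≤ A :=
    ⟨max (max a 15) (max (D + 1) (24 * V)), by simp, by simp, by simp, by simp⟩
  refine ⟨fun j => max A (C j + 1), fun j => le_max_of_le_left (by linarith),
    le_max_of_le_left a1, fun η η0 => exists_delta fun G δ H hδ => ?_⟩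
  have hA := le_max_left A (C 0 + 1)
  have H' := Eventually.of_forall (f := hyperfilter ℕ) H
  have c2 := cv_srg H' hδ
  simp only [one_pow, inv_one, one_smul] at c2
  have hc := cap_metric isOpen_univ
  have K := isCompact_closedBall (0 : E3) (exp (2 * (1 / η)))
  have s := (cv_scG c2 hc).lim
  filter_upwards [cv_near' isOpen_univ (cv_scG c2 hc) K (subset_univ _) (lt_min η0 one_pos),
    (eventually_all_finite (finite_le_nat ⌊1 / η⌋₊)).2 fun j _ => ev_compact (S := univ)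
      (P := fun p => RmB (srg 1 (G p.1)) j p.2 (C j + 1)) K (subset_univ _) fun x _ =>
        nhdsWithin_univ x ▸ rmB_ev c2 hc (mem_univ x) (hC j x) (lt_add_one _),
    (s 0 trivial).eventually (eventually_ge_nhds (show 6 / 5 < _ by linarith [two_le_sc])),
    (s q trivial).eventually (eventually_le_nhds (show _ < 101 / 100 by
      rw [scG_congr (cap_ev (by linarith)), sc_cyl (norm_pos_iff.1 (by linarith))]; norm_num)),
    ev_nonneg (((cv_pG c2 hc).lim 0 trivial).sub ((c2.lim 0 trivial).const_smul (1 / 10 : ℝ)))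
      pG_tip, hδ.eventually (eventually_le_nhds one_pos), ev_ball H' hδ 2,
    ev_ball H' hδ (exp (2 * (1 / η)))] with n h1 h2 h3 h4 h5 h6 h7 h8
  have m := met_model.2 ((H n).srg_metric h6)
  have o : (0 : E3) ∈ ball 0 (exp (δ n)⁻¹) := mem_ball_self (exp_pos _)
  refine ⟨⟨o, fun y hy => ?_, fun j hj y hy => ?_, by simpa [Sc_model] using h3,
    ⟨q, (H n).mem_bl h6 h7 (by linarith) (mem_closedBall_zero_iff.2 hq.le),
      by simpa [Sc_model] using h4⟩, fun v => le_trans ?_ (ricGe3 fr3 m o (κ := 1 / 10)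
      ((secGe_pG fr3 (met_model.1 m) o).2 fun v => sub_nonneg.1 (h5 v)) v), fun ρ hρ => ?_⟩,
    m.cpt K (closedBall_subset_ball h8) (by positivity) ((H n).bl_sub h6)⟩
  · have := abs_lt.1 (h1 y ((H n).bl_sub h6 hy))
    have h9 := hD y
    rw [Sc_model] at h9 ⊢
    constructor <;> linarith [sc_cap_ge y, min_le_left η 1, min_le_right η 1]
  · exact rmB_mono (h2 j (Nat.le_floor hj) y ((H n).bl_sub h6 hy)) (by simp)
  · refine mul_le_mul_of_nonneg_right ((div_le_iff₀ (by linarith)).2 (by linarith)) (m.nonneg o v)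
  · refine (measure_mono ((H n).bl_sub h6)).trans (((H n).vol_le h6 measurableSet_closedBall
      (closedBall_subset_ball ((exp_le_exp.2 (by linarith [hρ.2])).trans_lt h8))).trans
      ((mul_le_mul_right (hV _ (by linarith [hρ.1])) _).trans ?_))
    rw [← ENNReal.ofReal_mul (by norm_num)]
    refine ENNReal.ofReal_le_ofReal ?_
    nlinarith [hρ.1, mul_le_mul_of_nonneg_right (a4.trans hA) (zero_le_one.trans hρ.1)]

theorem tip_srg (r : ℝ) : ∃ c : ℕ → ℝ, (∀ j, 1 ≤ c j) ∧ ∀ η > 0, ∃ δ₀ > 0, ∀ (M : Type)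
    [TopologicalSpace M] [ChartedSpace E3 M] [IsManifold 𝓘(ℝ, E3) ∞ M] [MeasurableSpace M]
    [BorelSpace M] (g : Ten E3 M) (U : Set M) (ψ : E3 → M) (G : E3 → Bil E3) (h δ : ℝ), NK G h δ →
    δ ≤ δ₀ → Met g U → Hs U → P216SG.Emb ψ (ball 0 (exp δ⁻¹)) U →
    EqOn (comap ψ g) (srg h G) (ball 0 (exp δ⁻¹)) →
    Tip c g U (ψ 0) h η ∧ ∀ x ∈ closedBall (0 : E3) r, ψ x ∈ bl g U (ψ 0) (c 0 * h) := by
  obtain ⟨c, c1, c2, K⟩ := tip_chart (7 * r + 1)
  refine ⟨c, c1, fun η η0 => ?_⟩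
  obtain ⟨δ₀, h0, K⟩ := K η η0
  refine ⟨min (min δ₀ 1) (|r| + 1)⁻¹, by positivity, fun M _ _ _ _ _ g U ψ G h δ H hδ hg hU he e => ?_⟩
  simp only [le_min_iff] at hδ
  obtain ⟨k1, k2⟩ := K _ δ H.scale hδ.1.1
  have l := (HereditarilyLindelofSpace.isLindelof (ball (0 : E3) (exp δ⁻¹)))
  have k3 := tip_smul k1 (met_model.2 (H.scale.srg_metric hδ.1.2)) l H.hpos
  rw [← srg_eq H.hpos.ne'] at k3
  refine ⟨tip_push k3 (fun s hs => ?_) (met_model.2 (H.srg_metric hδ.1.2)) l he.ld he.inj he.mem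
    e.symm hg hU, fun x hx => ((he.ld.ed_le he.mem _ _).trans_eq (ed_congr e ▸ rfl)).trans_lt
      (H.mem_bl hδ.1.2 ?_ (by linarith) hx)⟩
  · rw [srg_eq H.hpos.ne', ← mul_div_cancel₀ s H.hpos.ne', cbl_smul H.hpos]
    exact k2 _ ((div_lt_iff₀' H.hpos).2 (hs.trans_eq (div_eq_mul_one_div _ _)))
  · linarith [add_one_le_exp δ⁻¹, le_abs_self r, (le_inv_comm₀ H.dpos (by positivity)).1 hδ.2]

/-- **the tip of a fresh cap with collar** -/
theorem tip_srd {a : ℝ} (ha : 0 ≤ a) : ∃ c : ℕ → ℝ, (∀ j, 1 ≤ c j) ∧ ∀ η > 0, ∃ δ₀ > 0,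
    ∀ (M : Type) [TopologicalSpace M] [ChartedSpace E3 M] [IsManifold 𝓘(ℝ, E3) ∞ M]
    [MeasurableSpace M] [BorelSpace M] (g : Ten E3 M) (U : Set M) (ψ : E3 → M) (G : E3 → Bil E3)
    (h δ : ℝ), NK G h δ → δ ≤ δ₀ → Met g U → Hs U → P216SG.Emb ψ (ball 0 (exp δ⁻¹)) U →
    EqOn (comap ψ g) (srd a h G) (ball 0 (exp δ⁻¹)) →
    Tip c g U (ψ 0) h η ∧ ∀ x ∈ closedBall (0 : E3) 1, ψ x ∈ bl g U (ψ 0) (c 0 * h) := by
  obtain ⟨c, c1, K⟩ := tip_srg (exp a)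
  refine ⟨c, c1, fun η η0 => ?_⟩
  obtain ⟨δ₀, h0, K⟩ := K η η0
  refine ⟨min (δ₀ / 2) (2 * (a + 1))⁻¹, by positivity,
    fun M _ _ _ _ _ g U ψ G h δ H hδ hg hU he e => ?_⟩
  simp only [le_min_iff] at hδ
  have d0 := H.dpos
  have h1 : a ≤ (2 * δ)⁻¹ := by
    linarith [(le_inv_comm₀ d0 (by positivity)).1 hδ.2, inv_half δ]
  have h2 := emb_dil (c := -a) (A := ball 0 (exp (2 * δ)⁻¹)) (B := ball 0 (exp δ⁻¹)) isOpen_ball
    fun x hx => by
      rw [mem_ball_zero_iff] at hx ⊢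
      exact (norm_dil _ x).trans_lt (((mul_le_of_le_one_left (norm_nonneg x) (exp_le_one_iff.2
        (by linarith))).trans_lt hx).trans_le (exp_le_exp.2 (inv_anti₀ d0 (by linarith))))
  obtain ⟨k1, k2⟩ := K M g U (ψ ∘ dil (-a)) _ h _ (H.shift ha h1) (by linarith [hδ.1]) hg hU
    (he.comp h2) fun x hx => by
      rw [he.comap_comp h2 g hx, comap_congr_right _ (e (h2.mem hx)), srd, comap_dil_dil']
  have e0 : (ψ ∘ dil (-a)) 0 = ψ 0 := by simp [dil]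
  rw [e0] at k1 k2
  refine ⟨k1, fun x hx => ?_⟩
  simpa only [Function.comp, dil_dil] using k2 (dil a x) (mem_closedBall_zero_iff.2
    ((norm_dil a x).trans_le (mul_le_of_le_one_right (exp_pos a).le (mem_closedBall_zero_iff.1 hx))))

/-- pinching and the lower bound for the scalar curvature at the points of the new cap -/
theorem Out.push {C c h δ : ℝ} {M : Type} [TopologicalSpace M] [ChartedSpace E3 M]
    [IsManifold 𝓘(ℝ, E3) ∞ M] {M' : Type} [TopologicalSpace M'] [ChartedSpace E3 M']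
    [IsManifold 𝓘(ℝ, E3) ∞ M'] {g : Ten E3 M} {U : Set M} {φ : E3 → M} {g' : Ten E3 M'}
    {U' : Set M'} {ψ : E3 → M'} {S : E3 → Bil E3} (H : Out C c h δ (comap φ g) S) (hg : Met g U)
    (hn : Neck g U φ h δ) (hg' : Met g' U') (he : P216SG.Emb ψ (ball 0 (exp δ⁻¹)) U')
    (e : EqOn (comap ψ g') S (ball 0 (exp δ⁻¹))) {x : E3} (hx : x ∈ ball (0 : E3) (exp δ⁻¹)) :
    (∀ τ > 0, (∀ y ∈ U, PinchAt g y τ) → PinchAt g' (ψ x) τ) ∧
    (∀ a ≤ 0, (∀ y ∈ U, a ≤ Sc g y) → a ≤ Sc g' (ψ x)) ∧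
    (∀ a ≤ 0, (∀ y ∈ U, SecGe g y a) → SecGe g' (ψ x) a) ∧
    (x ∈ ball (0 : E3) (exp (2 * δ)⁻¹) →
      1 / 2 ≤ h ^ 2 * Sc g' (ψ x) ∧ h ^ 2 * Sc g' (ψ x) ≤ C) := by
  have l : LI S g' ψ x := ⟨⟨U', hg', he.mem hx⟩, ⟨_, he.ld, hx⟩,
    e.symm.eventuallyEq_of_mem (isOpen_ball.mem_nhds hx)⟩
  exact ⟨fun τ h0 hp => (li_pinch l).1 ((H.imp x hx).pinch (met_model.2 (nk_of_neck hg hn).met)
      H.met hx h0 fun k => (li_pinch (neck_li hg hn k)).2 (hp _ (hn.emb.mem k))),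
    fun a ha hp => l.Sc ▸ (H.imp x hx).sc H.met hx ha fun k =>
      (neck_li hg hn k).Sc ▸ hp _ (hn.emb.mem k),
    fun a ha hp => (l.SecGe a).1 ((H.imp x hx).secGe H.met hx ha fun k =>
      ((neck_li hg hn k).SecGe a).2 (hp _ (hn.emb.mem k))), fun k => l.Sc ▸ H.sc x k⟩

end Vale.Agent.P216S
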