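import Mathlib.Analysis.SpecialFunctions.SmoothTransition
import Mathlib.MeasureTheory.Integral.IntervalIntegral.FundThmCalculus
import Mathlib.Analysis.Calculus.Deriv.MeanValue
import Mathlib.Analysis.SpecialFunctions.Log.Deriv
import Mathlib.Analysis.Calculus.ContDiff.Deriv
import Mathlib.Analysis.Calculus.Deriv.Slope
import Mathlib.Analysis.Complex.ExponentialBounds

/-! The profile of the standard cap, as functions of the squared radius. -/

open Real Set Filter Topology
open scoped ContDiff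

namespace Vale.Agent.P216S

noncomputable section

/-- the cutoff: one on `t ≤ 1/2`, zero on `1 ≤ t` -/
def mu (t : ℝ) : ℝ := smoothTransition (2 - 2 * t)

/-- the correction of the logarithmic derivative of the round profile -/
def kk (t : ℝ) : ℝ := (1 - mu t) * ((2 * t)⁻¹ - (1 + t)⁻¹)

/-- its primitive -/
def KK (t : ℝ) : ℝ := ∫ u in (1 : ℝ)..t, kk u

/-- the logarithm of the conformal factor over the flat metric -/
def ww (t : ℝ) : ℝ := log ((1 + t) / 2) + KK t

/-- its derivative -/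
def w1 (t : ℝ) : ℝ := (1 + t)⁻¹ + kk t

/-- the slope of the conformal factor over the cylinder -/
def th (t : ℝ) : ℝ := mu t * ((1 - t) / (1 + t))

/-- the logarithm of the conformal factor over the cylinder -/
def ph (t : ℝ) : ℝ := ww t - log t / 2

/-- the cutoff between the neck metric and the cylinder -/
def al (t : ℝ) : ℝ := smoothTransition (4 * t - 2)

variable {t : ℝ}

lemma mu_cd : ContDiff ℝ ∞ mu := smoothTransition.contDiff.comp (by fun_prop)
lemma al_cd : ContDiff ℝ ∞ al := smoothTransition.contDiff.comp (by fun_prop)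
lemma mu_nonneg (t : ℝ) : 0 ≤ mu t := smoothTransition.nonneg _
lemma mu_le (t : ℝ) : mu t ≤ 1 := smoothTransition.le_one _
lemma al_nonneg (t : ℝ) : 0 ≤ al t := smoothTransition.nonneg _
lemma al_le (t : ℝ) : al t ≤ 1 := smoothTransition.le_one _
lemma mu_one (h : t ≤ 1 / 2) : mu t = 1 := smoothTransition.one_of_one_le (by linarith)
lemma mu_zero (h : 1 ≤ t) : mu t = 0 := smoothTransition.zero_of_nonpos (by linarith)
lemma mu_pos (h : t < 1) : 0 < mu t := smoothTransition.pos_of_pos (by linarith)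
lemma al_one (h : 3 / 4 ≤ t) : al t = 1 := smoothTransition.one_of_one_le (by linarith)
lemma al_zero (h : t ≤ 1 / 2) : al t = 0 := smoothTransition.zero_of_nonpos (by linarith)
lemma mu_anti : Antitone mu := fun _ _ h => smoothTransition.monotone (by linarith)
lemma dmu_le (t : ℝ) : deriv mu t ≤ 0 := mu_anti.deriv_nonpos
lemma mu_d (t : ℝ) : HasDerivAt mu (deriv mu t) t := (mu_cd.differentiable (by simp) t).hasDerivAt

lemma kk_zero (h : t ≤ 1 / 2) : kk t = 0 := by simp [kk, mu_one h]

lemma kk_cd : ContDiff ℝ ∞ kk := contDiff_iff_contDiffAt.2 fun t => by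
  rcases lt_or_ge t (1 / 2) with h | h
  · exact contDiffAt_const.congr_of_eventuallyEq
      ((eventually_lt_nhds h).mono fun u hu => kk_zero hu.le)
  · exact (contDiffAt_const.sub mu_cd.contDiffAt).mul
      ((ContDiffAt.inv (by fun_prop) (by positivity)).sub
        (ContDiffAt.inv (by fun_prop) (by positivity)))

lemma KK_d (t : ℝ) : HasDerivAt KK (kk t) t := (kk_cd.continuous.integral_hasStrictDerivAt 1 t).hasDerivAt

lemma KK_cd : ContDiff ℝ ∞ KK := contDiff_infty_iff_deriv.2
  ⟨fun t => (KK_d t).differentiableAt, by rw [funext fun t => (KK_d t).deriv]; exact kk_cd⟩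

lemma ww_cd (h : -1 < t) : ContDiffAt ℝ ∞ ww t :=
  (ContDiffAt.log (by fun_prop) (by linarith)).add KK_cd.contDiffAt

lemma w1_cd (h : -1 < t) : ContDiffAt ℝ ∞ w1 t :=
  (ContDiffAt.inv (by fun_prop) (by linarith)).add kk_cd.contDiffAt

lemma ww_d (h : -1 < t) : HasDerivAt ww (w1 t) t := by
  have h1 : 1 + t ≠ 0 := by linarith
  refine (((((hasDerivAt_id t).const_add 1).div_const 2).log (by simpa using h1)).add
    (KK_d t)).congr_deriv ?_
  simp only [w1, id]; field_simp

lemma th_eq (h : -1 < t) : th t = 1 - 2 * t * w1 t := by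
  have h1 : 1 + t ≠ 0 := by linarith
  rcases eq_or_ne t 0 with rfl | h0
  · simp [th, mu_one]
  · simp only [th, w1, kk]; field_simp; ring

lemma th_cd (h : -1 < t) : ContDiffAt ℝ ∞ th t :=
  mu_cd.contDiffAt.mul (ContDiffAt.div (by fun_prop) (by fun_prop) (by linarith))

lemma th_d (h : -1 < t) :
    HasDerivAt th (deriv mu t * ((1 - t) / (1 + t)) - mu t * (2 / (1 + t) ^ 2)) t := by
  have h1 : 1 + t ≠ 0 := by linarith
  refine ((mu_d t).mul (((hasDerivAt_id t).const_sub 1).div ((hasDerivAt_id t).const_add 1)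
    h1)).congr_deriv ?_
  simp only [id, Pi.div_apply]; field_simp; ring

lemma th_zero (h : 1 ≤ t) : th t = 0 := by simp [th, mu_zero h]

lemma th_nonneg (h : 0 ≤ t) : 0 ≤ th t := by
  rcases le_total 1 t with h1 | h1
  · exact (th_zero h1).ge
  · exact mul_nonneg (mu_nonneg t) (div_nonneg (by linarith) (by linarith))

lemma th_le (h : 1 / 2 ≤ t) : th t ≤ mu t / 3 := by
  have : (1 - t) / (1 + t) ≤ 1 / 3 := by rw [div_le_div_iff₀ (by linarith) three_pos]; linarith
  exact (mul_le_mul_of_nonneg_left this (mu_nonneg t)).trans (le_of_eq (by ring))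

lemma dth_le (h : 0 ≤ t) : deriv th t ≤ -(mu t * (2 / (1 + t) ^ 2)) := by
  rw [(th_d (by linarith)).deriv]
  rcases lt_or_ge 1 t with h1 | h1
  · have : deriv mu t = 0 := by
      rw [show deriv mu t = deriv (fun _ => (0 : ℝ)) t from EventuallyEq.deriv_eq
        ((eventually_gt_nhds h1).mono fun u hu => mu_zero hu.le), deriv_const]
    simp [this]
  · have := mul_nonpos_of_nonpos_of_nonneg (dmu_le t)
      (div_nonneg (by linarith : 0 ≤ 1 - t) (by linarith : 0 ≤ 1 + t))
    linarith

lemma dth_nonpos (h : 0 ≤ t) : deriv th t ≤ 0 :=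
  (dth_le h).trans (neg_nonpos.2 (mul_nonneg (mu_nonneg t) (by positivity)))

lemma dth_neg (h : 0 ≤ t) (h1 : t < 1) : deriv th t < 0 :=
  (dth_le h).trans_lt (neg_neg_of_pos (mul_pos (mu_pos h1) (by positivity)))

lemma dth_zero (h : 1 ≤ t) : deriv th t = 0 := by
  have h2 : IsLocalMin th t := (eventually_gt_nhds (by linarith : 0 < t)).mono fun u hu => by
    rw [th_zero h]; exact th_nonneg hu.le
  exact h2.deriv_eq_zero

/-- the second derivative of the conformal factor along the cylinder -/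
def be (t : ℝ) : ℝ := -(2 * t) * deriv th t

lemma mu_le_be (h : 1 / 2 ≤ t) : mu t * (8 / 9) ≤ be t := by
  rcases le_total 1 t with h1 | h1
  · simp [be, mu_zero h1, dth_zero h1]
  have h2 := mul_le_mul_of_nonneg_left (dth_le (by linarith : 0 ≤ t)) (by linarith : 0 ≤ 2 * t)
  have h3 : 8 / 9 ≤ 2 * t * (2 / (1 + t) ^ 2) := by
    rw [← mul_div_assoc, div_le_div_iff₀ (by norm_num) (by positivity)]; nlinarith
  have := mul_le_mul_of_nonneg_left h3 (mu_nonneg t)
  unfold be; nlinarith

lemma w1_d (h : -1 < t) : HasDerivAt w1 (deriv w1 t) t :=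
  ((w1_cd h).differentiableAt (by simp)).hasDerivAt

lemma dth_eq (h : -1 < t) : deriv th t = -2 * (w1 t + t * deriv w1 t) := by
  rw [show deriv th t = deriv (fun t => 1 - 2 * t * w1 t) t from EventuallyEq.deriv_eq
    ((eventually_gt_nhds h).mono fun u hu => th_eq hu),
    ((((hasDerivAt_id' t).const_mul 2).fun_mul (w1_d h)).const_sub 1).deriv]
  ring

lemma kk_nonneg (h : t ≤ 1) : 0 ≤ kk t := by
  rcases le_total t (1 / 2) with h1 | h1
  · exact (kk_zero h1).ge
  · exact mul_nonneg (sub_nonneg.2 (mu_le t)) (sub_nonneg.2 (inv_anti₀ (by linarith) (by linarith)))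

lemma w1_pos (h : 0 ≤ t) : 0 < w1 t := by
  rcases le_total t 1 with h1 | h1
  · exact add_pos_of_pos_of_nonneg (by positivity) (kk_nonneg h1)
  · simp only [w1, kk, mu_zero h1]
    have : 0 < (2 * t)⁻¹ := by positivity
    linarith

lemma ph_cd (h : 0 < t) : ContDiffAt ℝ ∞ ph t :=
  (ww_cd (by linarith)).sub ((contDiffAt_log.2 h.ne').div_const 2)

lemma ph_d (h : 0 < t) : HasDerivAt ph (-(th t / (2 * t))) t := by
  refine ((ww_d (by linarith)).sub ((hasDerivAt_log h.ne').div_const 2)).congr_deriv ?_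
  rw [th_eq (by linarith)]; field_simp; ring

lemma ph_one : ph 1 = 0 := by simp [ph, ww, KK]

lemma ph_mv {a b : ℝ} (ha : 0 < a) (hab : a < b) :
    ∃ c ∈ Ioo a b, ph a - ph b = th c / (2 * c) * (b - a) := by
  obtain ⟨c, hc, e⟩ := exists_hasDerivAt_eq_slope ph (fun t => -(th t / (2 * t))) hab
    (fun u hu => (ph_d (ha.trans_le hu.1)).continuousAt.continuousWithinAt)
    fun u hu => ph_d (ha.trans hu.1)
  refine ⟨c, hc, ?_⟩
  rw [eq_div_iff (by linarith)] at e
  linarith

lemma ph_zero (h : 1 ≤ t) : ph t = 0 := by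
  rcases h.eq_or_lt with rfl | h
  · exact ph_one
  obtain ⟨c, hc, e⟩ := ph_mv one_pos h
  rw [th_zero hc.1.le, ph_one, zero_div, zero_mul] at e
  linarith

lemma ph_nonneg (h : 0 < t) : 0 ≤ ph t := by
  rcases le_or_gt 1 t with h1 | h1
  · exact (ph_zero h1).ge
  obtain ⟨c, hc, e⟩ := ph_mv h h1
  have h2 : 0 < c := h.trans hc.1
  have := mul_nonneg (div_nonneg (th_nonneg h2.le) (by linarith : 0 ≤ 2 * c)) (sub_nonneg.2 h1.le)
  rw [ph_one] at e
  linarith

lemma ph_le (h : 1 / 2 ≤ t) : ph t ≤ mu t / 6 := by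
  rcases le_or_gt 1 t with h1 | h1
  · rw [ph_zero h1, mu_zero h1]; simp
  obtain ⟨c, hc, e⟩ := ph_mv (by linarith) h1
  have h2 : 1 / 2 ≤ c := h.trans hc.1.le
  have h3 : th c / (2 * c) ≤ mu t / 3 := (div_le_self (th_nonneg (by linarith)) (by linarith)).trans
    ((th_le h2).trans (by linarith [mu_anti hc.1.le]))
  rw [ph_one, sub_zero] at e
  rw [e]
  refine (mul_le_mul h3 (show 1 - t ≤ 1 / 2 by linarith) (by linarith)
    (by linarith [mu_nonneg t])).trans (le_of_eq (by ring))

lemma exp_ww (h : 0 < t) : exp (-2 * ww t) * t = exp (-2 * ph t) := by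
  rw [ph, show -2 * (ww t - log t / 2) = -2 * ww t + log t by ring, exp_add, exp_log h]

lemma exp_ww_one (h : 1 ≤ t) : exp (-2 * ww t) = t⁻¹ := by
  have := exp_ww (by linarith : 0 < t)
  rw [ph_zero h, mul_zero, exp_zero] at this
  exact eq_inv_of_mul_eq_one_left this

lemma KK_ge (h : t ≤ 1) : -(1 / 2) ≤ KK t := by
  have key : ∀ a, 1 / 2 ≤ a → a ≤ 1 → -(1 / 2) ≤ KK a := fun a h1 h2 => by
    rcases h2.eq_or_lt with rfl | h2
    · simp [KK]
    obtain ⟨c, hc, e⟩ := exists_hasDerivAt_eq_slope KK kk h2 KK_cd.continuous.continuousOn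
      fun u _ => KK_d u
    have h3 : kk c ≤ 1 := by
      have a1 : (2 * c)⁻¹ ≤ 1 := inv_le_one_of_one_le₀ (by linarith [hc.1])
      have a2 : 0 ≤ (1 + c)⁻¹ := inv_nonneg.2 (by linarith [hc.1])
      have a3 : (1 + c)⁻¹ ≤ (2 * c)⁻¹ := inv_anti₀ (by linarith [hc.1]) (by linarith [hc.2])
      exact mul_le_one₀ (by linarith [mu_nonneg c]) (by linarith) (by linarith)
    rw [eq_div_iff (by linarith), show KK 1 = 0 by simp [KK]] at e
    nlinarith
  rcases le_or_gt (1 / 2) t with h1 | h1
  · exact key t h1 h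
  obtain ⟨c, hc, e⟩ := exists_hasDerivAt_eq_slope KK kk h1 KK_cd.continuous.continuousOn
    fun u _ => KK_d u
  rw [kk_zero hc.2.le, eq_div_iff (by linarith)] at e
  linarith [key _ le_rfl (by norm_num)]

/-- the tangential eigenvalue of the curvature over the flat metric -/
def cA (t : ℝ) : ℝ := 4 * (w1 t + t * deriv w1 t)

/-- the radial eigenvalue of the curvature over the flat metric -/
def cB (t : ℝ) : ℝ := 4 * w1 t * (1 - t * w1 t)

lemma cA_eq (h : 0 ≤ t) : cA t = -2 * deriv th t := by rw [dth_eq (by linarith), cA]; ring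
lemma cB_eq (h : 0 ≤ t) : cB t = 2 * w1 t * (1 + th t) := by rw [th_eq (by linarith), cB]; ring
lemma cA_nonneg (h : 0 ≤ t) : 0 ≤ cA t := by rw [cA_eq h]; linarith [dth_nonpos h]
lemma cA_pos (h : 0 ≤ t) (h1 : t < 1) : 0 < cA t := by rw [cA_eq h]; linarith [dth_neg h h1]

lemma cB_pos (h : 0 ≤ t) : 0 < cB t := by
  rw [cB_eq h]; exact mul_pos (by linarith [w1_pos h]) (by linarith [th_nonneg h])

/-- the scalar curvature of the cap is at least one -/
lemma sc_ge (h : 0 ≤ t) : 1 ≤ exp (2 * ww t) * (2 * cA t + cB t) := by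
  rcases le_total (1 / 2) t with h1 | h1
  · have h2 : 0 < t := by linarith
    have e1 : exp (2 * ww t) = exp (2 * ph t) * t := by
      rw [ph, show 2 * (ww t - log t / 2) = 2 * ww t - log t by ring, exp_sub, exp_log h2]
      field_simp
    have e2 : t * (2 * cA t + cB t) = 2 * be t + 1 - th t ^ 2 := by
      rw [cA_eq h, be, cB, th_eq (by linarith)]; ring
    have a1 := th_le h1
    have a2 := th_nonneg h
    have a3 := mu_le_be h1
    have a4 := mu_le t
    rw [e1, mul_assoc, e2]
    exact one_le_mul_of_one_le_of_one_le (one_le_exp (by linarith [ph_nonneg h2])) (by nlinarith)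
  · have h2 : 0 < 1 + t := by linarith
    have e1 : exp (2 * ww t) = (1 + t) ^ 2 / 4 * exp (2 * KK t) := by
      rw [ww, mul_add, exp_add, two_mul, exp_add, exp_log (by positivity)]; ring
    have a1 : 4 / (1 + t) ^ 2 ≤ cA t := by
      have := dth_le h
      rw [mu_one h1] at this
      rw [cA_eq h, show 4 / (1 + t) ^ 2 = 2 * (2 / (1 + t) ^ 2) by ring]; linarith
    have a2 : cB t = 4 / (1 + t) ^ 2 := by simp only [cB, w1, kk_zero h1]; field_simp; ring
    have a3 : 1 / 3 ≤ exp (2 * KK t) := by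
      refine le_trans ?_ (exp_le_exp.2 (show -1 ≤ 2 * KK t by linarith [KK_ge (t := t) (by linarith)]))
      rw [exp_neg, one_div]
      exact inv_anti₀ (exp_pos _) (exp_one_lt_d9.le.trans (by norm_num))
    rw [e1, a2]
    calc (1 : ℝ) = (1 + t) ^ 2 / 4 * (1 / 3) * (2 * (4 / (1 + t) ^ 2) + 4 / (1 + t) ^ 2) := by
          field_simp; ring
      _ ≤ _ := by gcongr

end

end Vale.Agent.P216S
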