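import Vale.Agent.P216S.Lim
import Vale.Agent.P216S.Prof
import Vale.Agent.P216SG.Defs
import Mathlib.Analysis.InnerProductSpace.Calculus

/-! The round cylinder on `E3` minus the origin and the standard cap on `E3`. -/

open scoped ContDiff Topology RealInnerProductSpace
open Set Filter Real

set_option maxSynthPendingDepth 3

noncomputable section

namespace Vale.Agent.P216S

open Vale.Agent.P219.RG Vale.Agent.P216R Vale.Agent.P216U
open Vale.Agent.P216SG (euc cyl)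
open Vale.Agent.P210.R2.H53 (gradG gamG hessG lapG)

/-- twice the flat metric -/
def e2 : E3 → Bil E3 := fun _ => (2 : ℝ) • euc

/-- the standard cap -/
def cap : E3 → Bil E3 := cnf (fun x => ww (‖x‖ ^ 2)) e2

/-- the coordinate along the axis, growing towards the origin -/
def ax (x : E3) : ℝ := -(log (‖x‖ ^ 2) / 2)

theorem euc_apply (v w : E3) : euc v w = ⟪v, w⟫ := rfl
theorem e2_apply (x v w : E3) : e2 x v w = 2 * ⟪v, w⟫ := rfl
theorem cyl_apply (x v w : E3) : cyl x v w = 2 / ‖x‖ ^ 2 * ⟪v, w⟫ := rfl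
theorem cap_apply (x v w : E3) : cap x v w = exp (-2 * ww (‖x‖ ^ 2)) * (2 * ⟪v, w⟫) := rfl
theorem fr3 : Module.finrank ℝ E3 = 3 := by simp

theorem cyl_nonneg (x v : E3) : 0 ≤ cyl x v v := by
  rw [cyl_apply]; exact mul_nonneg (by positivity) real_inner_self_nonneg

theorem e2_metric {U : Set E3} (hU : IsOpen U) : IsMetricOn e2 U :=
  ⟨hU, contDiffOn_const, fun _ _ v w => by rw [e2_apply, e2_apply, real_inner_comm],
    fun _ _ v hv => by rw [e2_apply]; exact mul_pos two_pos (real_inner_self_pos.2 hv)⟩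

theorem chrisB_e2 : chrisB e2 = 0 := by
  funext u; ext v w; simp [chrisB_apply, chris, show fderiv ℝ e2 u = 0 from fderiv_const_apply _]

theorem chris_e2 (u v w : E3) : chris e2 u v w = 0 := by rw [← chrisB_apply, chrisB_e2]; rfl

theorem ric_e2 (u : E3) : ricG e2 u = 0 := by
  have : curvB e2 u = 0 := by simp [curvB, chrisB_e2]
  simp [ricG, this]

theorem sc_e2 (u : E3) : scG e2 u = 0 := by simp [scG, ric_e2, trB]

theorem pG_e2 (u : E3) : pG e2 u = 0 := by simp [pG, sc_e2, ric_e2]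

section rad

variable {w w' : ℝ → ℝ} {x : E3} {a b : ℝ}

theorem nq_d (x : E3) : HasFDerivAt (fun y : E3 => ‖y‖ ^ 2) ((2 : ℝ) • euc x) x :=
  (hasStrictFDerivAt_norm_sq x).hasFDerivAt.congr_fderiv (by ext v; simp [euc_apply])

theorem nq_cd : ContDiff ℝ ∞ fun y : E3 => ‖y‖ ^ 2 := contDiff_norm_sq ℝ

theorem nq_t (x : E3) : Tendsto (fun y : E3 => ‖y‖ ^ 2) (𝓝 x) (𝓝 (‖x‖ ^ 2)) :=
  nq_cd.continuous.continuousAt

theorem rad_d (h : HasDerivAt w a (‖x‖ ^ 2)) :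
    HasFDerivAt (fun y : E3 => w (‖y‖ ^ 2)) ((2 * a) • euc x) x :=
  (h.comp_hasFDerivAt x (nq_d x)).congr_fderiv (by rw [smul_smul, mul_comm])

theorem rad_grad (h : HasDerivAt w a (‖x‖ ^ 2)) :
    gradG e2 (fun y : E3 => w (‖y‖ ^ 2)) x = a • x :=
  (e2_metric isOpen_univ).ext (mem_univ x) fun z => by
    rw [grad_spec (e2_metric isOpen_univ) (mem_univ x), (rad_d h).fderiv, e2_apply]
    simp [euc_apply, inner_smul_left, mul_assoc]

theorem rad_hess (h : ∀ᶠ t in 𝓝 (‖x‖ ^ 2), HasDerivAt w (w' t) t) (h' : HasDerivAt w' b (‖x‖ ^ 2))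
    (u v : E3) : hessG e2 (fun y : E3 => w (‖y‖ ^ 2)) x u v =
      4 * b * (⟪x, u⟫ * ⟪x, v⟫) + 2 * w' (‖x‖ ^ 2) * ⟪u, v⟫ := by
  have h1 : fderiv ℝ (fun y : E3 => w (‖y‖ ^ 2)) =ᶠ[𝓝 x] fun y => (2 * w' (‖y‖ ^ 2)) • euc y :=
    ((nq_t x).eventually h).mono fun y hy => (rad_d hy).fderiv
  rw [hessG_apply, chris_e2, map_zero, sub_zero, h1.fderiv_eq,
    (((rad_d h').const_mul 2).fun_smul euc.hasFDerivAt).fderiv]
  simp [euc_apply]
  ring

theorem rad_lap (h : ∀ᶠ t in 𝓝 (‖x‖ ^ 2), HasDerivAt w (w' t) t) (h' : HasDerivAt w' b (‖x‖ ^ 2)) :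
    lapG e2 (fun y : E3 => w (‖y‖ ^ 2)) x = 2 * b * ‖x‖ ^ 2 + 3 * w' (‖x‖ ^ 2) := by
  rw [lapG_eq, trB_eq ((e2_metric isOpen_univ).isInvertible (mem_univ x))
    ((2 * b) • (euc x).smulRight x + w' (‖x‖ ^ 2) • ContinuousLinearMap.id ℝ E3) fun u => by
      ext v
      rw [rad_hess h h', e2_apply]
      simp [euc_apply, inner_add_left, inner_smul_left]
      ring]
  simp only [map_add, map_smul, trL_rk, trL_id, fr3, euc_apply, real_inner_self_eq_norm_sq,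
    smul_eq_mul]
  push_cast; ring

theorem rad_gam (h : HasDerivAt w a (‖x‖ ^ 2)) (h' : HasDerivAt w' b (‖x‖ ^ 2)) :
    gamG e2 (fun y : E3 => w (‖y‖ ^ 2)) (fun y : E3 => w' (‖y‖ ^ 2)) x = 2 * a * b * ‖x‖ ^ 2 := by
  rw [gamG, rad_grad h', (rad_d h).fderiv]
  simp [euc_apply]
  ring

variable {U : Set E3} (hU : IsOpen U) (hx : x ∈ U) (hw : ContDiffOn ℝ ∞ (fun y : E3 => w (‖y‖ ^ 2)) U)
  (h : ∀ᶠ t in 𝓝 (‖x‖ ^ 2), HasDerivAt w (w' t) t) (h' : HasDerivAt w' b (‖x‖ ^ 2))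

include hU hx hw h h'

theorem rad_pG (u v : E3) : pG (cnf (fun y => w (‖y‖ ^ 2)) e2) x u v =
    4 * (w' (‖x‖ ^ 2) + ‖x‖ ^ 2 * b) * ⟪u, v⟫ - 4 * (b + w' (‖x‖ ^ 2) ^ 2) * (⟪x, u⟫ * ⟪x, v⟫) := by
  rw [pG_cnf3 fr3 (e2_metric hU) hw hx, pG_e2, rad_lap h h', rad_hess h h',
    (rad_d h.self_of_nhds).fderiv, e2_apply]
  simp [euc_apply]
  ring

theorem rad_sc : scG (cnf (fun y => w (‖y‖ ^ 2)) e2) x = exp (2 * w (‖x‖ ^ 2)) *
    (2 * (4 * (w' (‖x‖ ^ 2) + ‖x‖ ^ 2 * b)) + 4 * w' (‖x‖ ^ 2) * (1 - ‖x‖ ^ 2 * w' (‖x‖ ^ 2))) := by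
  rw [sc_cnf3 fr3 (e2_metric hU) hw hx, sc_e2, rad_lap h h', rad_gam h.self_of_nhds h.self_of_nhds]
  ring

end rad

/-! ### the cap -/

theorem nq_gt (x : E3) : -1 < ‖x‖ ^ 2 := neg_one_lt_zero.trans_le (sq_nonneg _)

theorem ww_nq : ContDiff ℝ ∞ fun y : E3 => ww (‖y‖ ^ 2) := contDiff_iff_contDiffAt.2 fun y =>
  ContDiffAt.comp (g := ww) y (ww_cd (nq_gt y)) nq_cd.contDiffAt

theorem cap_metric {U : Set E3} (hU : IsOpen U) : IsMetricOn cap U :=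
  cnf_metric (e2_metric hU) ww_nq.contDiffOn

theorem cap_cd : ContDiff ℝ ∞ cap := contDiffOn_univ.1 (cap_metric isOpen_univ).smooth

theorem ww_ev (x : E3) : ∀ᶠ t in 𝓝 (‖x‖ ^ 2), HasDerivAt ww (w1 t) t :=
  (eventually_gt_nhds (nq_gt x)).mono fun _ => ww_d

theorem sc_cap (x : E3) :
    scG cap x = exp (2 * ww (‖x‖ ^ 2)) * (2 * cA (‖x‖ ^ 2) + cB (‖x‖ ^ 2)) :=
  rad_sc isOpen_univ (mem_univ x) ww_nq.contDiffOn (ww_ev x) (w1_d (nq_gt x))

/-- the scalar curvature of the cap is at least one -/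
theorem sc_cap_ge (x : E3) : 1 ≤ scG cap x := sc_cap x ▸ sc_ge (sq_nonneg _)

theorem pG_cap_ge (x v : E3) : min (cA (‖x‖ ^ 2)) (cB (‖x‖ ^ 2)) * ‖v‖ ^ 2 ≤ pG cap x v v := by
  rw [cap, rad_pG isOpen_univ (mem_univ x) ww_nq.contDiffOn (ww_ev x) (w1_d (nq_gt x)),
    real_inner_self_eq_norm_sq]
  have h1 : ⟪x, v⟫ * ⟪x, v⟫ ≤ ‖x‖ ^ 2 * ‖v‖ ^ 2 := by
    simpa only [real_inner_self_eq_norm_sq] using real_inner_mul_inner_self_le x v
  have h2 := mul_le_mul_of_nonneg_right (min_le_left (cA (‖x‖ ^ 2)) (cB (‖x‖ ^ 2))) (sq_nonneg ‖v‖)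
  have h3 := mul_le_mul_of_nonneg_right (min_le_right (cA (‖x‖ ^ 2)) (cB (‖x‖ ^ 2))) (sq_nonneg ‖v‖)
  rcases le_total (deriv w1 (‖x‖ ^ 2) + w1 (‖x‖ ^ 2) ^ 2) 0 with h | h
  · refine h2.trans ?_
    have := mul_nonneg (neg_nonneg.2 h) (mul_self_nonneg ⟪x, v⟫)
    unfold cA; linarith
  · refine h3.trans ?_
    have := mul_le_mul_of_nonneg_left h1 h
    unfold cB; linarith

theorem pG_cap_nonneg (x v : E3) : 0 ≤ pG cap x v v :=
  (mul_nonneg (le_min (cA_nonneg (sq_nonneg _)) (cB_pos (sq_nonneg _)).le) (sq_nonneg _)).trans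
    (pG_cap_ge x v)

theorem cap_eq_ph {x : E3} (hx : x ≠ 0) : cap x = exp (-2 * ph (‖x‖ ^ 2)) • cyl x := by
  have h : 0 < ‖x‖ ^ 2 := by positivity
  ext v w
  rw [cap_apply, smul_apply, smul_apply, cyl_apply, ← exp_ww h, smul_eq_mul]
  field_simp

theorem cap_eq_cyl {x : E3} (hx : 1 ≤ ‖x‖) : cap x = cyl x := by
  rw [cap_eq_ph (norm_pos_iff.1 (one_pos.trans_le hx)), ph_zero (one_le_pow₀ hx)]; simp

theorem exp_ph_le {t : ℝ} (h : 0 < t) : exp (-2 * ph t) ≤ 1 :=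
  exp_le_one_iff.2 (by linarith [ph_nonneg h])

theorem cap_le_cyl {x : E3} (hx : x ≠ 0) (v : E3) : cap x v v ≤ cyl x v v := by
  rw [cap_eq_ph hx]
  exact mul_le_of_le_one_left (cyl_nonneg x v)
    (exp_ph_le (by positivity))

/-! ### the cylinder -/

theorem lg_d {t : ℝ} (h : 0 < t) : HasDerivAt (fun t => log t / 2) (2 * t)⁻¹ t :=
  ((hasDerivAt_log h.ne').div_const 2).congr_deriv (by field_simp)

theorem lg_d2 {t : ℝ} (h : 0 < t) : HasDerivAt (fun t : ℝ => (2 * t)⁻¹) (-(2 * t ^ 2)⁻¹) t :=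
  (((hasDerivAt_id' t).const_mul 2).fun_inv (by positivity)).congr_deriv (by field_simp)

theorem lg_cd : ContDiffOn ℝ ∞ (fun y : E3 => log (‖y‖ ^ 2) / 2) {0}ᶜ := fun _ hy =>
  ((nq_cd.contDiffAt.log (pow_ne_zero 2 (norm_ne_zero_iff.2 hy))).div_const 2).contDiffWithinAt

theorem ax_cd : ContDiffOn ℝ ∞ ax {0}ᶜ := lg_cd.neg

theorem cyl_eq {x : E3} (hx : x ≠ 0) : cyl =ᶠ[𝓝 x] cnf (fun y => log (‖y‖ ^ 2) / 2) e2 := by
  filter_upwards [isOpen_compl_singleton.mem_nhds hx] with y hy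
  have h : 0 < ‖y‖ ^ 2 := pow_pos (norm_pos_iff.2 hy) 2
  ext v w
  rw [cyl_apply, cnf_apply, e2_apply, show -2 * (log (‖y‖ ^ 2) / 2) = -log (‖y‖ ^ 2) by ring,
    exp_neg, exp_log h]
  ring

theorem cyl_metric : IsMetricOn cyl {0}ᶜ :=
  have h := cnf_metric (e2_metric isOpen_compl_singleton) lg_cd
  ⟨h.isOpen, h.smooth.congr fun _ hx => (cyl_eq hx).self_of_nhds,
    fun x _ v w => by rw [cyl_apply, cyl_apply, real_inner_comm],
    fun x hx v hv => by rw [(cyl_eq hx).self_of_nhds]; exact h.pos x hx v hv⟩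

variable {x : E3}

theorem lg_ev (hx : x ≠ 0) : ∀ᶠ t in 𝓝 (‖x‖ ^ 2), HasDerivAt (fun t => log t / 2) (2 * t)⁻¹ t :=
  (eventually_gt_nhds (by positivity)).mono fun _ => lg_d

theorem ax_d (hx : x ≠ 0) : HasFDerivAt ax (-(‖x‖ ^ 2)⁻¹ • euc x) x :=
  (rad_d (lg_d (by positivity))).neg.congr_fderiv (by
    rw [← neg_smul]; congr 2; field_simp)

theorem ax_apply (hx : x ≠ 0) (v : E3) : fderiv ℝ ax x v = -(⟪x, v⟫ / ‖x‖ ^ 2) := by
  rw [(ax_d hx).fderiv]; simp [euc_apply]; ring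

theorem sc_cyl (hx : x ≠ 0) : scG cyl x = 1 := by
  have h : 0 < ‖x‖ ^ 2 := by positivity
  rw [(scG_loc (cyl_eq hx)).self_of_nhds, rad_sc isOpen_compl_singleton hx lg_cd (lg_ev hx)
    (lg_d2 h), mul_div_cancel₀ _ two_ne_zero, exp_log h]
  field_simp; ring

theorem pG_cyl (hx : x ≠ 0) (u v : E3) : pG cyl x u v = fderiv ℝ ax x u * fderiv ℝ ax x v := by
  have h : 0 < ‖x‖ ^ 2 := by positivity
  rw [(pG_loc (cyl_eq hx)).self_of_nhds, rad_pG isOpen_compl_singleton hx lg_cd (lg_ev hx)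
    (lg_d2 h), ax_apply hx, ax_apply hx]
  field_simp; ring

theorem hess_ax (hx : x ≠ 0) : hessG cyl ax x = 0 := by
  have h : 0 < ‖x‖ ^ 2 := by positivity
  ext u v
  rw [hessG_loc (cyl_eq hx) (EventuallyEq.refl _ ax),
    hess_cnf (e2_metric isOpen_compl_singleton) lg_cd hx, ax_apply hx, ax_apply hx,
    (rad_d (lg_d h)).fderiv, e2_apply]
  have h1 := rad_hess (w := fun t => -(log t / 2)) (w' := fun t => -(2 * t)⁻¹)
    ((lg_ev hx).mono fun _ a => a.neg) (lg_d2 h).neg u v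
  have h2 := rad_gam (w := fun t => -(log t / 2)) (lg_d h).neg (lg_d h)
  change hessG e2 ax x u v = _ at h1
  change gamG e2 ax _ x = _ at h2
  rw [h1, h2]
  simp [euc_apply]
  field_simp; ring

theorem lap_ax (hx : x ≠ 0) : lapG cyl ax x = 0 := by simp [lapG_eq, hess_ax hx, trB]

theorem gam_ax (hx : x ≠ 0) : gamG cyl ax ax x = 1 / 2 := by
  have h : 0 < ‖x‖ ^ 2 := by positivity
  have : gradG cyl ax x = (-(1 / 2) : ℝ) • x := cyl_metric.ext hx fun z => by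
    rw [grad_spec cyl_metric hx, ax_apply hx, cyl_apply, inner_smul_left]
    simp; ring
  rw [gamG, this, ax_apply hx, inner_smul_right, real_inner_self_eq_norm_sq]
  field_simp

end Vale.Agent.P216S
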