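import Vale.Agent.P216R.Loc

/-! Conformal change of the connection and of the curvature in a chart. -/

open scoped ContDiff Topology
open Set Filter Real

set_option maxSynthPendingDepth 3

noncomputable section

namespace Vale.Agent.P216S

open Vale.Agent.P219.RG Vale.Agent.P216R
open Vale.Agent.P210.R2.H53 (gradG gamG hessG lapG)

variable {E : Type} [NormedAddCommGroup E] [NormedSpace ℝ E]

/-- the conformal change `e^(-2f) G` -/
def cnf (f : E → ℝ) (G : E → Bil E) : E → Bil E := fun x => exp (-2 * f x) • G x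

/-- the form that describes the change of the curvature -/
def cB2 (f : E → ℝ) (G : E → Bil E) (u : E) : Bil E :=
  hessG G f u + (fderiv ℝ f u).smulRight (fderiv ℝ f u) - (gamG G f f u / 2) • G u

/-- the form `R/2 g - Ric`; in dimension three its eigenvalues are the sectional curvatures -/
def pG [FiniteDimensional ℝ E] (G : E → Bil E) (u : E) : Bil E := (scG G u / 2) • G u - ricG G u

theorem cnf_apply (f : E → ℝ) (G : E → Bil E) (x v w : E) :
    cnf f G x v w = exp (-2 * f x) * G x v w := rfl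

variable [FiniteDimensional ℝ E]

theorem trB_eq {A B : Bil E} (hA : A.IsInvertible) (L : E →L[ℝ] E) (h : ∀ u, A (L u) = B u) :
    trB A B = trL E L := by
  rw [trB, trL_apply]
  congr 2
  ext u
  rw [ContinuousLinearMap.comp_apply, ← h, hA.inverse_apply_self]

theorem trL_id : trL E (ContinuousLinearMap.id ℝ E) = Module.finrank ℝ E := by
  rw [trL_apply]; exact LinearMap.trace_id ℝ E

theorem trL_rk (a : E →L[ℝ] ℝ) (v : E) : trL E (a.smulRight v) = a v := by
  rw [trL_apply]; exact LinearMap.trace_smulRight (a : E →ₗ[ℝ] ℝ) v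

theorem trB_self {A : Bil E} (hA : A.IsInvertible) : trB A A = Module.finrank ℝ E :=
  (trB_eq hA _ fun _ => rfl).trans trL_id

theorem trB_rk {A : Bil E} (hA : A.IsInvertible) (a b : E →L[ℝ] ℝ) :
    trB A (a.smulRight b) = a (A.inverse b) := by
  rw [trB_eq hA (a.smulRight (A.inverse b)) fun u => by simp [hA.self_apply_inverse], trL_rk]

variable {G : E → Bil E} {U : Set E} {f φ ψ : E → ℝ} {u : E}

theorem grad_spec (h : IsMetricOn G U) (hu : u ∈ U) (f : E → ℝ) (w : E) :
    G u (gradG G f u) w = fderiv ℝ f u w := by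
  rw [gradG, (h.isInvertible hu).self_apply_inverse]

theorem hess_symm (h : IsMetricOn G U) (hu : u ∈ U) (hf : ContDiffAt ℝ ∞ f u) (v w : E) :
    hessG G f u v w = hessG G f u w v := by
  rw [hessG_apply, hessG_apply, h.chris_symm hu,
    (hf.isSymmSndFDerivAt (by simpa using ENat.LEInfty.out)).eq v w]

theorem grad_cd (h : IsMetricOn G U) (hu : u ∈ U) (hf : ContDiffAt ℝ ∞ f u) :
    ContDiffAt ℝ ∞ (gradG G f) u :=
  (((h.isInvertible hu).contDiffAt_map_inverse).comp u (h.contDiffAt hu)).clm_apply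
    (hf.fderiv_right (by simp))

theorem grad_d (h : IsMetricOn G U) (hu : u ∈ U) (hf : ContDiffAt ℝ ∞ f u) (x w : E) :
    G u (fderiv ℝ (gradG G f) u x + chris G u x (gradG G f u)) w = hessG G f u x w := by
  have h1 := (((h.differentiableAt hu).hasFDerivAt.clm_apply ((grad_cd h hu hf).differentiableAt
    (by simp)).hasFDerivAt).clm_apply (hasFDerivAt_const w u)).fderiv
  have h2 := ((((hf.fderiv_right (m := ∞) (by simp)).differentiableAt (by simp)).hasFDerivAt
    ).clm_apply (hasFDerivAt_const w u)).fderiv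
  rw [EventuallyEq.fderiv_eq (f := fun p => fderiv ℝ f p w) ((h.isOpen.eventually_mem hu).mono
    fun p hp => grad_spec h hp f w), h2] at h1
  have h3 := DFunLike.congr_fun h1 x
  simp only [add_apply, ContinuousLinearMap.comp_apply,
    ContinuousLinearMap.flip_apply, zero_apply, map_zero, zero_add] at h3
  rw [h.chris_compat hu, grad_spec h hu f (chris G u x w)] at h3
  rw [hessG_apply, h3, map_add, add_apply]
  ring

omit [FiniteDimensional ℝ E] in
theorem cnf_metric (h : IsMetricOn G U) (hf : ContDiffOn ℝ ∞ f U) : IsMetricOn (cnf f G) U :=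
  ⟨h.isOpen, (contDiff_exp.comp_contDiffOn (contDiffOn_const.mul hf)).smul h.smooth,
    fun u hu v w => by rw [cnf_apply, cnf_apply, h.symm u hu],
    fun u hu v hv => mul_pos (exp_pos _) (h.pos u hu v hv)⟩

omit [FiniteDimensional ℝ E] in
theorem fderiv_cnf (h : IsMetricOn G U) (hu : u ∈ U) (hf : DifferentiableAt ℝ f u) (x v w : E) :
    fderiv ℝ (cnf f G) u x v w =
      exp (-2 * f u) * (fderiv ℝ G u x v w - 2 * fderiv ℝ f u x * G u v w) := by
  have h1 := ((hf.hasFDerivAt.const_mul (-2)).exp.smul (h.differentiableAt hu).hasFDerivAt).fderiv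
  change fderiv ℝ (cnf f G) u = _ at h1
  rw [h1]
  simp
  ring

theorem chris_cnf (h : IsMetricOn G U) (hf : ContDiffOn ℝ ∞ f U) (hu : u ∈ U) (v w : E) :
    chris (cnf f G) u v w = chris G u v w - fderiv ℝ f u v • w - fderiv ℝ f u w • v +
      G u v w • gradG G f u := by
  have hd := (hf.contDiffAt (h.isOpen.mem_nhds hu)).differentiableAt (by simp)
  refine (cnf_metric h hf).ext hu fun z => ?_
  rw [(cnf_metric h hf).chris_spec hu, cnf_apply]
  simp only [fderiv_cnf h hu hd, map_add, map_sub, map_smul, add_apply,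
    sub_apply, smul_apply, smul_eq_mul, h.chris_spec hu,
    grad_spec h hu]
  ring

theorem grad_cnf (h : IsMetricOn G U) (hf : ContDiffOn ℝ ∞ f U) (hu : u ∈ U) (φ : E → ℝ) :
    gradG (cnf f G) φ u = exp (2 * f u) • gradG G φ u := by
  refine (cnf_metric h hf).ext hu fun z => ?_
  rw [grad_spec (cnf_metric h hf) hu, cnf_apply, map_smul, smul_apply,
    grad_spec h hu, smul_eq_mul, ← mul_assoc, ← exp_add]
  simp

theorem gam_cnf (h : IsMetricOn G U) (hf : ContDiffOn ℝ ∞ f U) (hu : u ∈ U) (φ ψ : E → ℝ) :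
    gamG (cnf f G) φ ψ u = exp (2 * f u) * gamG G φ ψ u := by
  rw [gamG, grad_cnf h hf hu, map_smul]; rfl

theorem hess_cnf (h : IsMetricOn G U) (hf : ContDiffOn ℝ ∞ f U) (hu : u ∈ U) (φ : E → ℝ)
    (v w : E) : hessG (cnf f G) φ u v w = hessG G φ u v w + fderiv ℝ f u v * fderiv ℝ φ u w +
      fderiv ℝ f u w * fderiv ℝ φ u v - G u v w * gamG G φ f u := by
  simp only [hessG_apply, chris_cnf h hf hu, map_add, map_sub, map_smul, smul_eq_mul, gamG]
  ring

omit [FiniteDimensional ℝ E] in
theorem cB2_apply (v w : E) : cB2 f G u v w =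
    hessG G f u v w + fderiv ℝ f u v * fderiv ℝ f u w - gamG G f f u / 2 * G u v w := rfl

theorem cB2_symm (h : IsMetricOn G U) (hu : u ∈ U) (hf : ContDiffAt ℝ ∞ f u) (v w : E) :
    cB2 f G u v w = cB2 f G u w v := by
  rw [cB2_apply, cB2_apply, hess_symm h hu hf, h.symm u hu v w]; ring

theorem curv_cnf (h : IsMetricOn G U) (hf : ContDiffOn ℝ ∞ f U) (hu : u ∈ U) (x y z : E) :
    curv (cnf f G) u x y z = curv G u x y z + cB2 f G u y z • x - cB2 f G u x z • y +
      G u y z • (G u).inverse (cB2 f G u x) - G u x z • (G u).inverse (cB2 f G u y) := by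
  have hc := hf.contDiffAt (h.isOpen.mem_nhds hu)
  have d2 := ((hc.fderiv_right (m := ∞) (by simp)).differentiableAt (by simp)).hasFDerivAt
  have dG := (h.differentiableAt hu).hasFDerivAt
  have dN := ((grad_cd h hu hc).differentiableAt (by simp)).hasFDerivAt
  have key : ∀ x y, fderiv ℝ (fun p => chris (cnf f G) p y z) u x =
      fderiv ℝ (fun p => chris G p y z) u x - fderiv ℝ (fderiv ℝ f) u x y • z -
        fderiv ℝ (fderiv ℝ f) u x z • y + (G u y z • fderiv ℝ (gradG G f) u x +
          fderiv ℝ G u x y z • gradG G f u) := fun x y => by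
    have k := (((((h.contDiffAt_chris hu y z).differentiableAt (by simp)).hasFDerivAt.fun_sub
      ((d2.clm_apply (hasFDerivAt_const y u)).smul_const z)).fun_sub
      ((d2.clm_apply (hasFDerivAt_const z u)).smul_const y)).fun_add
      (((dG.clm_apply (hasFDerivAt_const y u)).clm_apply (hasFDerivAt_const z u)).fun_smul
        dN)).fderiv
    rw [EventuallyEq.fderiv_eq ((h.isOpen.eventually_mem hu).mono fun p hp =>
      chris_cnf h hf hp y z), k]
    simp
  refine h.ext hu fun w => ?_
  have e1 := grad_d h hu hc x w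
  have e2 := grad_d h hu hc y w
  have s2 := (hc.isSymmSndFDerivAt (by simpa using ENat.LEInfty.out)).eq x y
  rw [curv, curv, key, key]
  simp only [chris_cnf h hf hu, cB2_apply, hessG_apply, h.chris_compat hu, gamG,
    (h.isInvertible hu).self_apply_inverse, ← chrisB_apply, map_add, map_sub, map_smul,
    add_apply, sub_apply, smul_apply,
    smul_eq_mul, grad_spec h hu] at e1 e2 ⊢
  simp only [chrisB_apply, h.chris_symm hu y x, h.symm u hu y x, s2,
    h.symm u hu _ (gradG G f u), grad_spec h hu] at e1 e2 ⊢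
  linear_combination G u y z * e1 - G u x z * e2

theorem ric_cnf (h : IsMetricOn G U) (hf : ContDiffOn ℝ ∞ f U) (hu : u ∈ U) :
    ricG (cnf f G) u = ricG G u + ((Module.finrank ℝ E : ℝ) - 2) • cB2 f G u +
      trB (G u) (cB2 f G u) • G u := by
  ext v w
  have e : ((curvB (cnf f G) u).flip v).flip w = ((curvB G u).flip v).flip w +
      cB2 f G u v w • ContinuousLinearMap.id ℝ E - ((cB2 f G u).flip w).smulRight v +
      G u v w • ((G u).inverse ∘L cB2 f G u) -
      ((G u).flip w).smulRight ((G u).inverse (cB2 f G u v)) := by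
    ext x
    simp [curvB_apply (cnf_metric h hf) hu, curvB_apply h hu, curv_cnf h hf hu]
  rw [ricG_apply, e]
  simp only [map_add, map_sub, map_smul, trL_rk, trL_id, ← ricG_apply,
    ContinuousLinearMap.flip_apply, (h.isInvertible hu).self_apply_inverse,
    add_apply, smul_apply, smul_eq_mul]
  change _ = _ + _ + trL E ((G u).inverse ∘L cB2 f G u) * _
  ring

theorem tr_cB2 (h : IsMetricOn G U) (hu : u ∈ U) :
    trB (G u) (cB2 f G u) = lapG G f u + (1 - (Module.finrank ℝ E : ℝ) / 2) * gamG G f f u := by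
  rw [cB2, trB_sub, trB_add, trB_smul, trB_self (h.isInvertible hu), trB_rk (h.isInvertible hu),
    lapG_eq]
  change _ + gamG G f f u - _ = _
  ring

theorem sc_cnf (h : IsMetricOn G U) (hf : ContDiffOn ℝ ∞ f U) (hu : u ∈ U) :
    scG (cnf f G) u = exp (2 * f u) *
      (scG G u + (2 * (Module.finrank ℝ E : ℝ) - 2) * trB (G u) (cB2 f G u)) := by
  rw [scG, ric_cnf h hf hu]
  refine (trB_smul_left (exp_ne_zero _) _ _).trans ?_
  rw [trB_add, trB_add, trB_smul, trB_smul, trB_self (h.isInvertible hu), ← exp_neg, scG]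
  ring_nf

/-- dimension three: the scalar curvature -/
theorem sc_cnf3 (h3 : Module.finrank ℝ E = 3) (h : IsMetricOn G U) (hf : ContDiffOn ℝ ∞ f U)
    (hu : u ∈ U) :
    scG (cnf f G) u = exp (2 * f u) * (scG G u + 4 * lapG G f u - 2 * gamG G f f u) := by
  rw [sc_cnf h hf hu, tr_cB2 h hu, h3]; push_cast; ring

/-- dimension three: the curvature form -/
theorem pG_cnf3 (h3 : Module.finrank ℝ E = 3) (h : IsMetricOn G U) (hf : ContDiffOn ℝ ∞ f U)
    (hu : u ∈ U) (v w : E) : pG (cnf f G) u v w = pG G u v w + lapG G f u * G u v w -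
      hessG G f u v w - fderiv ℝ f u v * fderiv ℝ f u w := by
  have e : exp (2 * f u) * exp (-2 * f u) = 1 := by rw [← exp_add]; simp
  simp only [pG, sc_cnf3 h3 h hf hu, ric_cnf h hf hu, tr_cB2 h hu, h3, cB2_apply, cnf_apply,
    add_apply, sub_apply, smul_apply,
    smul_eq_mul]
  push_cast
  linear_combination (scG G u + 4 * lapG G f u - 2 * gamG G f f u) / 2 * G u v w * e

end Vale.Agent.P216S
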