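import Vale.Agent.P216S.Pin
import Vale.Agent.P216SG.Inv
import Vale.Agent.P216J.Jet
import Vale.Agent.P216U.Curv
import Vale.Agent.P216R.Flow

/-! Geometry of the cap: comparison with the flat metric, completeness, curvature bounds. -/

open scoped ContDiff Topology RealInnerProductSpace Manifold
open Set Filter Real Metric

set_option maxSynthPendingDepth 3

noncomputable section

namespace Vale.Agent.P216S

open Vale.Agent.P219.RG Vale.Agent.P216R Vale.Agent.P216U Vale.Agent.P216BF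
open Vale.Agent.P216SG (euc cyl dev Sm anl ann Neck dil norm_dil comap_dil ld_dil dil_dil dil_ne
  dil_mem_anl contDiff_dil)

variable {x : E3} {t : ℝ}

theorem ww_mono : MonotoneOn ww (Ici 0) :=
  monotoneOn_of_deriv_nonneg (convex_Ici 0)
    (fun _ ht => (ww_d (neg_one_lt_zero.trans_le ht)).continuousAt.continuousWithinAt)
    (fun _ ht => (ww_d (neg_one_lt_zero.trans_le (interior_subset ht))).differentiableAt
      |>.differentiableWithinAt) fun _ ht => by
    rw [(ww_d (neg_one_lt_zero.trans_le (interior_subset ht))).deriv]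
    exact (w1_pos (interior_subset ht)).le

theorem one_le_exp_ww (h0 : 0 ≤ t) (h : t ≤ 1) : 1 ≤ exp (-2 * ww t) := by
  have := ww_mono h0 (mem_Ici.2 zero_le_one) h
  rw [show ww 1 = 0 by simp [ww, KK]] at this
  exact one_le_exp (by linarith)

theorem exp_ww_le (h0 : 0 ≤ t) : exp (-2 * ww t) ≤ 11 := by
  have h1 := ww_mono (le_refl (0 : ℝ)) h0 h0
  have h2 : -2 * ww t ≤ log 4 + 1 := by
    have : log 4 = 2 * log 2 := by rw [← log_rpow two_pos]; norm_num
    rw [ww, add_zero, one_div, log_inv] at h1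
    linarith [KK_ge (t := 0) zero_le_one]
  refine (exp_le_exp.2 h2).trans ?_
  rw [exp_add, exp_log four_pos]
  linarith [exp_one_lt_d9]

theorem cap_le_euc (x v : E3) : cap x v v ≤ 22 * ‖v‖ ^ 2 := by
  rw [cap_apply, real_inner_self_eq_norm_sq]
  nlinarith [exp_ww_le (sq_nonneg ‖x‖), sq_nonneg ‖v‖]

theorem euc_le_cap (hx : ‖x‖ ≤ 1) (v : E3) : 2 * ‖v‖ ^ 2 ≤ cap x v v := by
  rw [cap_apply, real_inner_self_eq_norm_sq]
  exact le_mul_of_one_le_left (by positivity)
    (one_le_exp_ww (sq_nonneg _) (pow_le_one₀ (norm_nonneg x) hx))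

theorem cap_low (x v : E3) : 2 * ‖v‖ ^ 2 ≤ (1 + ‖x‖ ^ 2) * cap x v v := by
  rcases le_total ‖x‖ 1 with h | h
  · exact (euc_le_cap h v).trans (le_mul_of_one_le_left (cap_nonneg x v)
      (le_add_of_nonneg_right (sq_nonneg _)))
  · have h1 : 0 < ‖x‖ := one_pos.trans_le h
    have := cyl_nonneg x v
    rw [cap_eq_cyl h, add_mul, one_mul, cyl_apply, real_inner_self_eq_norm_sq] at *
    rw [← mul_assoc, mul_div_cancel₀ _ (by positivity)]
    linarith

theorem cap_up (x v : E3) : ‖x‖ ^ 2 * cap x v v ≤ 2 * ‖v‖ ^ 2 := by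
  rcases eq_or_ne x 0 with rfl | h
  · simp
  have := norm_ne_zero_iff.2 h
  refine (mul_le_mul_of_nonneg_left (cap_le_cyl h v) (sq_nonneg _)).trans_eq ?_
  rw [cyl_apply, real_inner_self_eq_norm_sq]; field_simp

theorem met_cap : Met cap univ := met_model.2 (cap_metric isOpen_univ)

theorem met_cyl : Met cyl {0}ᶜ := met_model.2 cyl_metric

/-- the function `log (1 + |x|²)` is Lipschitz for every metric above a multiple of the cap -/
theorem log_le_ed {G : E3 → Bil E3} {S : Set E3} (hS : IsOpen S) {a : ℝ} (ha : 0 < a)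
    (h : ∀ y ∈ S, ∀ v, cap y v v ≤ a ^ 2 * G y v v) (x y : E3) :
    ‖log (1 + ‖y‖ ^ 2) - log (1 + ‖x‖ ^ 2)‖ₑ ≤ ENNReal.ofReal (2 * a) * ed G S x y := by
  have p : ∀ y : E3, 0 < 1 + ‖y‖ ^ 2 := fun y => by positivity
  refine lip_of_mfderiv (φ := fun y : E3 => log (1 + ‖y‖ ^ 2)) hS (((contDiff_const.add
    nq_cd).log fun y => (p y).ne').of_le (by simp)).contMDiff.contMDiffOn (by positivity)
    (fun z hz v => ?_) x y
  rw [mdF, mfderiv_eq_fderiv, (((nq_d z).const_add 1).log (p z).ne').fderiv]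
  refine (abs_le_sqrt (y := (2 * a) ^ 2 * G z v v) ?_).trans (sqrt_le_of (by positivity) le_rfl)
  have h1 : ⟪z, v⟫ * ⟪z, v⟫ ≤ ‖z‖ ^ 2 * ‖v‖ ^ 2 := by
    simpa only [real_inner_self_eq_norm_sq] using real_inner_mul_inner_self_le z v
  change ((1 + ‖z‖ ^ 2)⁻¹ * (2 * ⟪z, v⟫)) ^ 2 ≤ _
  rw [mul_pow, inv_pow, inv_mul_le_iff₀ (pow_pos (p z) 2)]
  have h2 := mul_le_mul_of_nonneg_left (cap_low z v) (p z).le
  have h3 := mul_le_mul_of_nonneg_left (h z hz v) (sq_nonneg (1 + ‖z‖ ^ 2))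
  have h4 := mul_nonneg (sq_nonneg (1 + ‖z‖ ^ 2)) (cap_nonneg z v)
  nlinarith [sq_nonneg ‖v‖]

/-- the cap is complete -/
theorem cpl_cap : Cpl cap univ := fun x _ r => by
  refine (isCompact_closedBall (0 : E3) √(exp (log (1 + ‖x‖ ^ 2) + 2 * |r|))).of_isClosed_subset
    (isClosed_le (continuousOn_univ.1 (met_cap.continuousOn_ed x)) continuous_const) fun y hy => ?_
  have h := (log_le_ed isOpen_univ one_pos (fun y _ v => by simp) x y).trans
    (mul_le_mul_right (hy.trans (ENNReal.ofReal_le_ofReal (le_abs_self r))) _)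
  rw [← ENNReal.ofReal_mul (by norm_num), ← ofReal_norm,
    ENNReal.ofReal_le_ofReal_iff (by positivity)] at h
  refine mem_closedBall_zero_iff.2 (le_sqrt_of_sq_le ?_)
  have := (log_le_iff_le_exp (by positivity)).1
    (show log (1 + ‖y‖ ^ 2) ≤ log (1 + ‖x‖ ^ 2) + 2 * |r| by linarith [(abs_le.1 h).2])
  linarith

theorem comap_dil_cyl (c : ℝ) : comap (dil c) cyl = cyl := by
  ext x v w
  have := (exp_pos c).ne'
  simp only [comap_dil, smul_apply, cyl_apply, norm_dil, smul_eq_mul]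
  rcases eq_or_ne ‖x‖ 0 with h | h
  · simp [h]
  · field_simp

theorem li_dil_cyl (c : ℝ) (hx : x ≠ 0) : LI cyl cyl (dil c) x := by
  simpa only [comap_dil_cyl] using li_comap met_cyl (ld_dil c) (mem_univ x) (dil_ne hx)

theorem cap_ev (hx : 1 < ‖x‖) : cap =ᶠ[𝓝 x] cyl :=
  (continuous_norm.continuousAt.eventually (eventually_gt_nhds hx)).mono fun _ h => cap_eq_cyl h.le

/-- curvature derivatives of one metric are bounded on compact sets -/
theorem exists_rmB {E : Type} [NormedAddCommGroup E] [NormedSpace ℝ E] [FiniteDimensional ℝ E]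
    {g : E → Bil E} {S K : Set E} (hg : IsMetricOn g S) (hK : IsCompact K) (hs : K ⊆ S) (k : ℕ) :
    ∃ C, ∀ y ∈ K, RmB g k y C := by
  refine hK.induction_on (p := fun A => ∃ C, ∀ y ∈ A, RmB g k y C) ⟨0, by simp⟩
    (fun A B h ⟨C, hC⟩ => ⟨C, fun y hy => hC y (h hy)⟩) (fun A B ⟨C, hC⟩ ⟨D, hD⟩ =>
      ⟨max C D, fun y hy => hy.elim (fun h => rmB_mono (hC y h) (le_max_left _ _))
        fun h => rmB_mono (hD y h) (le_max_right _ _)⟩) fun y hy => ?_
  obtain ⟨c, c0, hc⟩ := exists_coer (hg.pos y (hs hy))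
  obtain ⟨C, hC⟩ := P216J.Mt.rmB (l := 𝓝[K] y) (x := id) (G := fun _ => g) (k := k)
    (mem_of_superset self_mem_nhdsWithin fun z hz => ⟨S, hg, hs hz⟩) ⟨c / 2, half_pos c0,
      (close_forms ((hg.contDiffAt (hs hy)).continuousAt.tendsto.mono_left nhdsWithin_le_nhds)
        c0 hc one_pos).mono fun z hz v => show _ ≤ g z v v by linarith [(hz v).2, hc v]⟩
    (.of_compact hK (fun z hz => hg.contDiffAt (hs hz)) self_mem_nhdsWithin)
  exact ⟨_, hC, C, fun _ h => h⟩

/-- the cap has bounded geometry -/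
theorem exists_rmB_cap (k : ℕ) : ∃ C, ∀ x, RmB cap k x C := by
  obtain ⟨C, hC⟩ := exists_rmB (cap_metric isOpen_univ) (isCompact_closedBall (0 : E3) 2)
    (subset_univ _) k
  refine ⟨C, fun x => (le_or_gt ‖x‖ 2).elim (fun h => hC x (mem_closedBall_zero_iff.2 h))
    fun h => ?_⟩
  have h0 : 0 < ‖x‖ := two_pos.trans h
  have e : ‖dil (log (2 / ‖x‖)) x‖ = 2 := by
    rw [norm_dil, exp_log (by positivity), div_mul_cancel₀ _ h0.ne']
  rw [RmB_congr (cap_ev (one_lt_two.trans h)), (li_dil_cyl (log (2 / ‖x‖)) (norm_pos_iff.1 h0)).RmB,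
    ← RmB_congr (cap_ev (one_lt_two.trans_eq e.symm))]
  exact hC _ (mem_closedBall_zero_iff.2 e.le)

theorem exists_sc_cap : ∃ C, ∀ x, Sc cap x ≤ C :=
  (exists_rmB_cap 0).elim fun C h =>
    ⟨6 * C, fun x => (abs_le.1 (abs_sc_le3 fr3 met_cap (mem_univ x) (h x))).2⟩

theorem one_le_Sc_cap (x : E3) : 1 ≤ Sc cap x := (sc_cap_ge x).trans_eq (Sc_model cap x).symm

/-- curvature derivatives of the surgery metric -/
theorem exists_rmB_srg (k : ℕ) : ∃ C, ∀ r, ∃ δ₀ > 0, ∀ (G : E3 → Bil E3) (δ : ℝ), NK G 1 δ →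
    δ ≤ δ₀ → ∀ x ∈ closedBall (0 : E3) r, RmB (srg 1 G) k x C := by
  obtain ⟨C, hC⟩ := exists_rmB_cap k
  refine ⟨C + 1, fun r => exists_delta fun G δ H hδ => ?_⟩
  have c2 := cv_srg (Eventually.of_forall (f := hyperfilter ℕ) H) hδ
  simp only [one_pow, inv_one, one_smul] at c2
  exact ev_compact (S := univ) (P := fun q => RmB (srg 1 (G q.1)) k q.2 (C + 1))
    (isCompact_closedBall 0 r) (subset_univ _) fun x _ => nhdsWithin_univ x ▸
      rmB_ev c2 (cap_metric isOpen_univ) (mem_univ x) (hC x) (lt_add_one C)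

/-! ### recentring -/

theorem iter_dil {F : Type} [NormedAddCommGroup F] [NormedSpace ℝ F] (f : E3 → F) (c : ℝ) (j : ℕ)
    (x : E3) : ‖iteratedFDeriv ℝ j (f ∘ dil c) x‖ ≤ ‖iteratedFDeriv ℝ j f (dil c x)‖ * exp c ^ j := by
  have h := (ContinuousLinearEquiv.equivOfInverse (exp c • ContinuousLinearMap.id ℝ E3)
    (exp (-c) • ContinuousLinearMap.id ℝ E3) (dil_dil c) fun y => by
      simp [smul_smul, ← exp_add]).iteratedFDerivWithin_comp_right f uniqueDiffOn_univ
      (x := x) (mem_univ _) j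
  rw [preimage_univ, iteratedFDerivWithin_univ, iteratedFDerivWithin_univ] at h
  refine (congrArg norm h).trans_le ((ContinuousMultilinearMap.norm_compContinuousLinearMap_le
    _ _).trans (mul_le_mul_of_nonneg_left ?_ (norm_nonneg _)))
  rw [Finset.prod_const, Finset.card_univ, Fintype.card_fin]
  exact pow_le_pow_left₀ (norm_nonneg _) (ContinuousLinearMap.opNorm_le_bound _ (exp_pos c).le
    fun y => (norm_dil c y).le) j

theorem dev_dil (h c : ℝ) (G : E3 → Bil E3) : dev h (comap (dil c) G) = dev h G ∘ dil c := by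
  ext x v w
  simp only [Function.comp, dev_apply, comap_dil, norm_dil, smul_apply, smul_eq_mul]; ring

theorem NK.dil {G : E3 → Bil E3} {h δ δ' c : ℝ} (H : NK G h δ) (h0 : 0 < δ')
    (hc : |c| + δ'⁻¹ ≤ δ⁻¹) : NK (comap (dil c) G) h δ' := by
  have h1 : δ'⁻¹ ≤ δ⁻¹ := by linarith [abs_nonneg c]
  refine ⟨H.hpos, h0, (met_model.2 H.met).isMetricOn_comap ((ld_dil c).mono (anl_open _)
    (subset_univ _)) (dil_mem_anl hc), fun j hj x hx => ?_⟩
  refine le_trans ?_ ((H.sm j (hj.trans (Nat.floor_mono h1)) _ (dil_mem_anl hc hx)).trans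
    ((inv_le_inv₀ h0 H.dpos).1 h1))
  rw [dev_dil, norm_dil, mul_pow]
  exact (mul_le_mul_of_nonneg_left (iter_dil _ c j x) (by positivity)).trans_eq (by ring)

theorem NK.mono {G : E3 → Bil E3} {h δ δ' : ℝ} (H : NK G h δ) (h0 : δ ≤ δ') : NK G h δ' := by
  have h1 := inv_anti₀ H.dpos h0
  have h2 := P216SG.anl_mono h1
  exact ⟨H.hpos, H.dpos.trans_le h0, met_model.1 ((met_model.2 H.met).mono (anl_open _) h2),
    fun j hj x hx => (H.sm j (hj.trans (Nat.floor_mono h1)) x (h2 hx)).trans h0⟩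

end Vale.Agent.P216S
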