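import Vale.Agent.P216S.Geo
import Vale.Agent.P216MP.Nu
import Vale.Agent.P216FI.Vol2

/-! Curvature of necks; the surgery metric with an unmodified collar and all its properties. -/

open scoped ContDiff Topology RealInnerProductSpace Manifold
open Set Filter Real Metric

set_option maxSynthPendingDepth 3

noncomputable section

namespace Vale.Agent.P216S

open Vale.Agent.P219.RG Vale.Agent.P216R Vale.Agent.P216U Vale.Agent.P216BF
open Vale.Agent.P216MP (PinchAt nu li_nu li_pinch nu_smul pinchAt_congr pinchAt_of_secGe secGe_nu)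
open Vale.Agent.P216SG (euc cyl dev Sm anl ann Neck dil norm_dil comap_dil ld_dil dil_dil dil_ne
  dil_mem_anl contDiff_dil lv exists_dil mem_anl anl_mono)

variable {G : E3 → Bil E3} {x : E3} {c h δ ε : ℝ}

theorem exists_perp (x : E3) : ∃ v : E3, v ≠ 0 ∧ ⟪x, v⟫ = 0 := by
  obtain ⟨z, hz, h0⟩ := Submodule.exists_mem_ne_zero_of_ne_bot (p := (Submodule.span ℝ {x})ᗮ)
    fun k => by
      have h1 := finrank_span_le_card (R := ℝ) ({x} : Set E3)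
      rw [Submodule.orthogonal_eq_bot_iff.1 k, finrank_top, fr3] at h1
      simp at h1
  exact ⟨z, h0, Submodule.mem_orthogonal_singleton_iff_inner_right.1 hz⟩

theorem nk_unit (hε : 0 < ε) : ∃ δ₀ > 0, ∀ (G : E3 → Bil E3) (δ : ℝ), NK G 1 δ → δ ≤ δ₀ →
    ∀ x ∈ sphere (0 : E3) 1, |Sc G x - 1| ≤ ε ∧ |nu G x| ≤ ε := by
  refine exists_delta fun G δ H hδ => ?_
  have c1 := cv_neck (Eventually.of_forall (f := hyperfilter ℕ) H) hδ
  simp only [one_pow, inv_one, one_smul] at c1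
  have hS := Nice.of_isOpen (isOpen_compl_singleton (x := (0 : E3)))
  have h0 : sphere (0 : E3) 1 ⊆ {0}ᶜ := fun x hx => ne_of_mem_sphere hx one_ne_zero
  have p := fun x (hx : x ∈ sphere (0 : E3) 1) => ((cv_pG c1 cyl_metric).tendsto hS (h0 hx)).sub
    (((pG_cd cyl_metric).continuousOn x (h0 hx)).tendsto.comp tendsto_snd)
  have q := fun x (hx : x ∈ sphere (0 : E3) 1) => (c1.tendsto hS (h0 hx)).const_smul ε
  have k : ∀ x ∈ sphere (0 : E3) 1, ∀ v, v ≠ 0 → 0 < (ε • cyl x) v v := fun x hx v hv =>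
    mul_pos hε (cyl_metric.pos x (h0 hx) v hv)
  filter_upwards [cv_near' isOpen_compl_singleton (cv_scG c1 cyl_metric) (isCompact_sphere 0 1) h0
    hε, ev_compact (isCompact_sphere 0 1) h0 fun x hx => ev_nonneg ((q x hx).add (p x hx))
      (by simpa using k x hx), ev_compact (isCompact_sphere 0 1) h0 fun x hx =>
        ev_nonneg ((q x hx).sub (p x hx)) (by simpa using k x hx)] with n h1 h2 h3 x hx
  have hm := P216SG.sphere_sub_anl (inv_pos.2 (H n).dpos) hx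
  have m := met_model.2 (H n).met
  simp only [add_apply, sub_apply, smul_apply, smul_eq_mul, Function.comp] at h2 h3
  refine ⟨by simpa [Sc_model, sc_cyl (h0 hx)] using (h1 x hx).le, abs_le.2 ⟨?_, ?_⟩⟩
  · refine (P216MP.secGe_iff m hm).1 ((secGe_pG fr3 (H n).met hm).2 fun v => ?_)
    have := h2 x hx v
    rw [pG_cyl (h0 hx)] at this
    linarith [mul_self_nonneg (fderiv ℝ ax x v)]
  · obtain ⟨v, hv, hp⟩ := exists_perp x
    have h4 := h3 x hx v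
    rw [pG_cyl (h0 hx), ax_apply (h0 hx), hp, zero_div, neg_zero, mul_zero] at h4
    refine le_of_mul_le_mul_right ?_ (m.pos x hm v hv)
    linarith [(secGe_pG fr3 (H n).met hm).1 (secGe_nu m hm) v]

theorem nk_unit_rmB (k : ℕ) : ∃ C, ∃ δ₀ > 0, ∀ (G : E3 → Bil E3) (δ : ℝ), NK G 1 δ → δ ≤ δ₀ →
    ∀ x ∈ sphere (0 : E3) 1, RmB G k x C := by
  have h0 : sphere (0 : E3) 1 ⊆ {0}ᶜ := fun x hx => ne_of_mem_sphere hx one_ne_zero
  obtain ⟨C, hC⟩ := exists_rmB cyl_metric (isCompact_sphere 0 1) h0 k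
  refine ⟨C + 1, exists_delta fun G δ H hδ => ?_⟩
  have c1 := cv_neck (Eventually.of_forall (f := hyperfilter ℕ) H) hδ
  simp only [one_pow, inv_one, one_smul] at c1
  exact ev_compact (S := univ) (P := fun q => RmB (G q.1) k q.2 (C + 1)) (isCompact_sphere 0 1)
    (subset_univ _) fun x hx => nhdsWithin_univ x ▸
      rmB_ev c1 cyl_metric (h0 hx) (hC x hx) (lt_add_one C)

theorem inv_half (δ : ℝ) : (2 * δ)⁻¹ + (2 * δ)⁻¹ = δ⁻¹ := by ring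

theorem half_sub (hδ : 0 < δ) : anl (2 * δ)⁻¹ ⊆ anl δ⁻¹ := anl_mono (inv_anti₀ hδ (by linarith))

/-- every point of the middle half is the centre of a normalised neck -/
theorem NK.centre (H : NK G h δ) (hx : x ∈ anl (2 * δ)⁻¹) : ∃ u ∈ sphere (0 : E3) 1,
    ∃ G', NK G' 1 (2 * δ) ∧ ∃ f, f u = x ∧ LI G' ((h ^ 2)⁻¹ • G) f u := by
  obtain ⟨u, hu, e⟩ := exists_dil (anl_ne hx)
  exact ⟨u, hu, _, H.scale.dil (c := lv x) (by linarith [H.dpos])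
    (by linarith [show |lv x| < _ from (mem_anl.1 hx).2, inv_half δ]), _, e,
    li_comap (met_model.2 H.scale.met) (ld_dil _) (mem_univ u) (e.symm ▸ half_sub H.dpos hx)⟩

theorem rmB_scale {M : Type} [TopologicalSpace M] [ChartedSpace E3 M] [IsManifold 𝓘(ℝ, E3) ∞ M]
    {g : Ten E3 M} {U : Set M} {x : M} {k : ℕ} {C : ℝ} (hg : Met g U) (hx : x ∈ U) (hh : 0 < h) :
    RmB ((h ^ 2)⁻¹ • g) k x C ↔ RmB g k x (C / h ^ (k + 2)) := by
  rw [← inv_pow, hg.RmB_smul hx (inv_pos.2 hh), inv_pow, inv_mul_eq_div]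

/-- scalar curvature and least sectional curvature of a neck -/
theorem nk_curv (hε : 0 < ε) : ∃ δ₀ > 0, ∀ (G : E3 → Bil E3) (h δ : ℝ), NK G h δ → δ ≤ δ₀ →
    ∀ x ∈ anl (2 * δ)⁻¹, |h ^ 2 * Sc G x - 1| ≤ ε ∧ |h ^ 2 * nu G x| ≤ ε := by
  obtain ⟨δ₀, h0, K⟩ := nk_unit hε
  refine ⟨δ₀ / 2, half_pos h0, fun G h δ H hδ x hx => ?_⟩
  obtain ⟨u, hu, G', h1, f, rfl, h2⟩ := H.centre hx
  have h3 := inv_pos.2 (pow_pos H.hpos 2)
  simpa only [h2.Sc, li_nu h2, Sc_smul _ _ h3.ne', inv_inv,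
    nu_smul (met_model.2 H.met) (half_sub H.dpos hx) h3] using K G' _ h1 (by linarith) u hu

/-- curvature derivatives of a neck -/
theorem nk_rmB (k : ℕ) : ∃ C, ∃ δ₀ > 0, ∀ (G : E3 → Bil E3) (h δ : ℝ), NK G h δ → δ ≤ δ₀ →
    ∀ x ∈ anl (2 * δ)⁻¹, RmB G k x (C / h ^ (k + 2)) := by
  obtain ⟨C, δ₀, h0, K⟩ := nk_unit_rmB k
  refine ⟨C, δ₀ / 2, half_pos h0, fun G h δ H hδ x hx => ?_⟩
  obtain ⟨u, hu, G', h1, f, rfl, h2⟩ := H.centre hx
  exact (rmB_scale (met_model.2 H.met) (half_sub H.dpos hx) H.hpos).1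
    ((h2.RmB k C).1 (K G' _ h1 (by linarith) u hu))

section mfd

variable {M : Type} [TopologicalSpace M] [ChartedSpace E3 M] [IsManifold 𝓘(ℝ, E3) ∞ M]

theorem neck_li {g : Ten E3 M} {U : Set M} {φ : E3 → M} (hg : Met g U) (H : Neck g U φ h δ)
    (hx : x ∈ anl δ⁻¹) : LI (comap φ g) g φ x := li_comap hg H.emb.ld hx (H.emb.mem hx)

end mfd

theorem neck_curv (hε : 0 < ε) : ∃ δ₀ > 0, ∀ (M : Type) [TopologicalSpace M] [ChartedSpace E3 M]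
    [IsManifold 𝓘(ℝ, E3) ∞ M] (g : Ten E3 M) (U : Set M) (φ : E3 → M) (h δ : ℝ), Met g U →
    Neck g U φ h δ → δ ≤ δ₀ → ∀ x ∈ anl (2 * δ)⁻¹,
      |h ^ 2 * Sc g (φ x) - 1| ≤ ε ∧ |h ^ 2 * nu g (φ x)| ≤ ε :=
  (nk_curv hε).imp fun _ ⟨h0, K⟩ => ⟨h0, fun _ _ _ _ _ _ _ h δ hg H hδ x hx => by
    have k := neck_li hg H (half_sub H.dpos hx)
    exact k.Sc ▸ li_nu k ▸ K _ h δ (nk_of_neck hg H) hδ x hx⟩

theorem neck_rmB (k : ℕ) : ∃ C, ∃ δ₀ > 0, ∀ (M : Type) [TopologicalSpace M] [ChartedSpace E3 M]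
    [IsManifold 𝓘(ℝ, E3) ∞ M] (g : Ten E3 M) (U : Set M) (φ : E3 → M) (h δ : ℝ), Met g U →
    Neck g U φ h δ → δ ≤ δ₀ → ∀ x ∈ anl (2 * δ)⁻¹, RmB g k (φ x) (C / h ^ (k + 2)) :=
  (nk_rmB k).imp fun _ ⟨δ₀, h0, K⟩ => ⟨δ₀, h0, fun _ _ _ _ _ _ _ h δ hg H hδ x hx =>
    ((neck_li hg H (half_sub H.dpos hx)).RmB k _).1 (K _ h δ (nk_of_neck hg H) hδ x hx)⟩

/-! ### the surgery metric at scale `h` -/

theorem srg_ev (hh : h ≠ 0) (hx : 1 < ‖x‖) : srg h G =ᶠ[𝓝 x] G :=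
  (continuous_norm.continuousAt.eventually (eventually_gt_nhds hx)).mono fun _ k => srg_out hh k.le

/-- either the curvature is nonnegative or it has improved -/
def Imp (G S : E3 → Bil E3) (A : Set E3) (x : E3) : Prop :=
  SecGe S x 0 ∨ x ∈ A ∧ Sc G x ≤ Sc S x ∧ ∀ κ ≤ 0, SecGe G x κ → SecGe S x κ

theorem srg_curv : ∃ C, ∃ δ₀ > 0, ∀ (G : E3 → Bil E3) (h δ : ℝ), NK G h δ → δ ≤ δ₀ →
    (∀ x ∈ ball (0 : E3) (exp (2 * δ)⁻¹), 1 / 2 ≤ h ^ 2 * Sc (srg h G) x ∧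
      h ^ 2 * Sc (srg h G) x ≤ C) ∧ ∀ x ∈ ball (0 : E3) (exp δ⁻¹), Imp G (srg h G) (anl δ⁻¹) x := by
  obtain ⟨C, δ₀, h0, K⟩ := exists_pin
  obtain ⟨δ₁, h1, K1⟩ := nk_curv one_half_pos
  refine ⟨max C 2, min δ₀ δ₁, lt_min h0 h1, fun G h δ H hδ => ?_⟩
  have h2 := inv_pos.2 (pow_pos H.hpos 2)
  have K0 := K _ δ H.scale (hδ.trans (min_le_left _ _))
  simp only [← srg_scale H.hpos.ne', ← Sc_model, Sc_smul _ _ h2.ne', SecGe_smul _ _ h2, inv_inv,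
    mul_zero] at K0
  have ha : ∀ {L : ℝ} {x : E3}, 0 < L → x ∈ ball (0 : E3) (exp L) → 1 < ‖x‖ → x ∈ anl L :=
    fun hL hx k => ⟨(exp_lt_one_iff.2 (neg_lt_zero.2 hL)).trans k, mem_ball_zero_iff.1 hx⟩
  refine ⟨fun x hx => ?_, fun x hx => ?_⟩ <;> rcases le_or_gt ‖x‖ 1 with k | k
  · have := (K0 x (mem_closedBall_zero_iff.2 k)).1
    exact ⟨this.1, le_max_of_le_left this.2⟩
  · have := abs_le.1 (K1 G h δ H (hδ.trans (min_le_right _ _)) x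
      (ha (inv_pos.2 (by linarith [H.dpos])) hx k)).1
    rw [Sc_congr (srg_ev H.hpos.ne' k)]
    exact ⟨by linarith, le_max_of_le_right (by linarith)⟩
  · refine (K0 x (mem_closedBall_zero_iff.2 k)).2.2.imp_right fun ⟨a, b, c⟩ =>
      ⟨a, le_of_mul_le_mul_left b (pow_pos H.hpos 2), fun κ k0 hs => ?_⟩
    have e : (h ^ 2)⁻¹ * (h ^ 2 * κ) = κ := inv_mul_cancel_left₀ (pow_pos H.hpos 2).ne' κ
    exact e ▸ c _ (mul_nonpos_of_nonneg_of_nonpos (sq_nonneg h) k0) (e.symm ▸ hs)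
  · exact Or.inr ⟨ha (inv_pos.2 H.dpos) hx k, (Sc_congr (srg_ev H.hpos.ne' k)).ge,
      fun κ _ => (SecGe_congr (srg_ev H.hpos.ne' k) κ).2⟩

theorem srg_rmB (k : ℕ) : ∃ C, ∃ δ₀ > 0, ∀ (G : E3 → Bil E3) (h δ : ℝ), NK G h δ → δ ≤ δ₀ →
    ∀ x ∈ ball (0 : E3) (exp (2 * δ)⁻¹), RmB (srg h G) k x (C / h ^ (k + 2)) := by
  obtain ⟨C, K⟩ := exists_rmB_srg k
  obtain ⟨δ₀, h0, K⟩ := K 1
  obtain ⟨C1, δ₁, h1, K1⟩ := nk_rmB k
  refine ⟨max C C1, min (min δ₀ δ₁) 1, lt_min (lt_min h0 h1) one_pos, fun G h δ H hδ x hx => ?_⟩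
  simp only [le_min_iff] at hδ
  have := H.hpos
  have h2 := H.dpos
  rcases le_or_gt ‖x‖ 1 with k | k
  · refine rmB_mono ((rmB_scale (met_model.2 (H.srg_metric hδ.2)) (ball_subset_ball (exp_le_exp.2
      (inv_anti₀ h2 (by linarith))) hx) this).1 (srg_scale this.ne' G ▸ K _ δ H.scale hδ.1.1 x
        (mem_closedBall_zero_iff.2 k))) (by gcongr; exact le_max_left _ _)
  · exact rmB_mono ((RmB_congr (srg_ev this.ne' k) _ _).2 (K1 G h δ H hδ.1.2 x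
      ⟨(exp_lt_one_iff.2 (neg_lt_zero.2 (by positivity))).trans k, mem_ball_zero_iff.1 hx⟩))
      (by gcongr; exact le_max_right _ _)

/-- pinching and lower bounds for the scalar curvature are preserved -/
theorem Imp.pinch {S : E3 → Bil E3} {A B : Set E3} {τ : ℝ} (H : Imp G S A x) (hG : Met G A)
    (hS : Met S B) (hx : x ∈ B) (hτ : 0 < τ) (hp : x ∈ A → PinchAt G x τ) : PinchAt S x τ := by
  have k : SecGe S x 0 → PinchAt S x τ := fun h =>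
    pinchAt_of_secGe hS hx hτ (κ := 0) (by simpa using h) (by simp)
  rcases H with h | ⟨h1, h2, h3⟩
  · exact k h
  rcases le_total (nu G x) 0 with h4 | h4
  · exact (hp h1).of_le hτ hS hx h2 (h3 _ h4 (secGe_nu hG h1))
  · exact k (h3 0 le_rfl ((P216MP.secGe_iff hG h1).2 h4))

theorem Imp.sc {S : E3 → Bil E3} {A B : Set E3} {a : ℝ} (H : Imp G S A x) (hS : Met S B)
    (hx : x ∈ B) (ha : a ≤ 0) (hp : x ∈ A → a ≤ Sc G x) : a ≤ Sc S x :=
  H.elim (fun h => by linarith [sc_ge3 fr3 hS hx h]) fun h => (hp h.1).trans h.2.1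

theorem Imp.secGe {S : E3 → Bil E3} {A B : Set E3} {a : ℝ} (H : Imp G S A x) (hS : Met S B)
    (hx : x ∈ B) (ha : a ≤ 0) (hp : x ∈ A → SecGe G x a) : SecGe S x a :=
  H.elim (fun h => secGe_mono hS hx h ha) fun h => h.2.2 a ha (hp h.1)

end Vale.Agent.P216S
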